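import Claimed.Agent.R322.Dens.GeomC
import Claimed.Agent.R322.Pack051

/-!
# CO Section 6b: pointwise geometry of the radial test field (leaves P1-P5)

Notation at a point `X` of the tube: `y = π X`, `z = z(X)`, `U = dF(y)(y - y₀)`,
`U' = ∇_S(ρ²/2) = dF(y) g(y)⁻¹ g(y₀)(y - y₀)`, `G = K_z U' + z`, `Y = J_z U + z`.

**P2 (`radial_pointwise`), full computation.**
(1) `Y·G = ⟨J_z U, K_z U'⟩ + |z|² = ⟨U, U'⟩ + |z|² = D(ρ²/2)(y)(y - y₀) + |z|² = d²` (`J_z` symmetric).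
(2) `Δ := Y - G = (U - U') - A_z U - (K_z - 1) U'` is horizontal, `Δ = Δ₀ + R`, `|Δ₀| ≤ C ε² ρ²`,
    `|R| ≤ C ε |z| ρ`.  `Y·(1-P)G = |(1-P)G|² + Δ·(1-P)G`;
    `|R·(1-P)G| ≤ ¼|(1-P)G|² + |R|²`; `|Δ₀·(1-P)G| ≤ |(1-P)Δ₀| |(1-P)G| ≤ √e |Δ₀| |(1-P)G|
    ≤ ¼ |(1-P)G|² + e |Δ₀|²`.  Hence `Y·(1-P)G ≥ ½ |(1-P)G|² - C ε² (|z|² t² + t⁴ e)` on `d ≤ t`.
(3) `|z| ≤ |(1-P)G| + C t √e`: vertical component, `P_v (1-P) G = z - P_v P G`, `|P_v P| ≤ √e`.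
(4) `P:D(WY) = W P:DY + ⟨P ∇(W∘π), Y⟩`, `P:DY = [div_S U - B:∇^S U + 𝓔_U] + [e - H·z + O(..)]`
    (`Tube.lift_trace`, `Tube.normal_trace`), `B:∇^S U = e + O(ε ρ e)`,
    `⟨P K_z ∇W, J_z U + z⟩ = U·∇W + O(e ε ρ) + O(√e ε |z|)`, and
    `W (div_S U - m) + U·∇W = 0` (definition of `divS`, `Wd`).  So
    `|𝓔| ≤ C ε {e (ρ + |z|) + (a |z| + |z|²)(1 + ρ) + √e |z|}`.
(5) with `b' = |(1-P)G|/t`: `|z| ≤ t`, `|z| ≤ t (b' + C √e)`, so every adverse term is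
    `≤ C ε t Ψ (b'² + e + a²)` (`Φ ≤ Ψ`); absorb `b'²` into `½ W Ψ b'²`, `W ≥ ½`.
-/

set_option autoImplicit false

open scoped ENNReal ContDiff
open MeasureTheory

namespace Claimed.Agent.R322.Dens

open Claimed.Agent.R322.Tube Claimed.Agent.R322.Fn

variable {m n : ℕ}

/-- reference graph with all derivatives of order `1..4` bounded by `ε` -/
structure Flat4 (ε : ℝ) (u : E m → E n) : Prop where
  smooth : ContDiff ℝ 4 u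
  geo : ∀ j : ℕ, 1 ≤ j → j ≤ 4 → ∀ y, ‖iteratedFDeriv ℝ j u y‖ ≤ ε

theorem Flat4.toGeo {ε : ℝ} {u : E m → E n} (hu : Flat4 ε u) (hε : ε ≤ 1 / 2) : Geo ε u where
  smooth := hu.smooth
  slope := fun y => by
    rw [← norm_iteratedFDeriv_one]
    exact (hu.geo 1 le_rfl (by norm_num) y).trans hε
  d2 := hu.geo 2 (by norm_num) (by norm_num)
  d3 := hu.geo 3 (by norm_num) (by norm_num)
  le_one := hε.trans (by norm_num)

theorem Flat4.gk_geo {ε : ℝ} {u : E m → E n} (h : Flat4 ε u) (hε : ε ≤ 1 / 3) : Geo ε u where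
  smooth := h.smooth
  slope := fun y => by
    have := h.geo 1 le_rfl (by norm_num) y
    rw [norm_iteratedFDeriv_one] at this
    linarith
  d2 := h.geo 2 (by norm_num) (by norm_num)
  d3 := h.geo 3 (by norm_num) (by norm_num)
  le_one := by linarith

/-- [P1] regularity of the fields, `Y·G = d²`, exact compensation. -/
theorem radial_exact (m n : ℕ) : ∃ h₀ ε₁ : ℝ, 0 < h₀ ∧ 0 < ε₁ ∧ ∀ (u : E m → E n) (ε : ℝ),
    Flat4 ε u → ε ≤ ε₁ → ∀ y₀ : E m,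
      ContDiffOn ℝ 1 (WY u y₀) (Tub u h₀) ∧ ContDiffOn ℝ 2 (dsq u y₀) (Tub u h₀) ∧
      ContDiffOn ℝ 2 (fun X => Wd u y₀ (npr u X)) (Tub u h₀) ∧
      (∀ X ∈ Tub u h₀, inner ℝ (Yf u y₀ X) (Gf u y₀ X) = dsq u y₀ X) ∧
      (∀ y, Wd u y₀ y * (divS u (fun y' => y' - y₀) y - m) + fderiv ℝ (Wd u y₀) y (y - y₀) = 0) := by
  refine ⟨2 / 9, 1 / 2, by norm_num, by norm_num, fun u ε hu hε y₀ => ?_⟩
  have hg := hu.toGeo hε
  exact ⟨fun X hX => ((dg_contDiffAt_WY hg le_rfl hX y₀).of_le (by norm_num)).contDiffWithinAt,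
    fun X hX => ((dg_contDiffAt_dsq hg le_rfl hX y₀).of_le (by norm_num)).contDiffWithinAt,
    fun X hX => ((dg_contDiffAt_Wnpr hg le_rfl hX y₀).of_le (by norm_num)).contDiffWithinAt,
    fun X hX => dg_inner_Y_G hg le_rfl hX y₀, fun y => dg_compensation hu.smooth y₀ y⟩

/-- [P2] **the integrand of `t dI/dt` is almost nonnegative.** -/
theorem radial_pointwise (m n : ℕ) : ∃ h₀ ε₁ C : ℝ, 0 < h₀ ∧ 0 < ε₁ ∧ 0 < C ∧
    ∀ (u : E m → E n) (ε a : ℝ), Flat4 ε u → ε ≤ ε₁ → 0 ≤ a →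
    ∀ (y₀ : E m) (X : E (m + n)), X ∈ Tub u h₀ → ∀ P : E (m + n) →L[ℝ] E (m + n), IsProj m P →
    ∀ t : ℝ, 0 < t → t ≤ 1 → dsq u y₀ X ≤ t ^ 2 →
      ‖HS u (npr u X)‖ + Real.sqrt (DHSsq u (npr u X)) ≤ ε * a →
      - (C * ε * t * (tilt u P X + a ^ 2)) ≤
        Psi (dsq u y₀ X / t ^ 2) / t ^ 2 * Wd u y₀ (npr u X) *
            inner ℝ (Yf u y₀ X) (Gf u y₀ X - P (Gf u y₀ X))
          + Phi (dsq u y₀ X / t ^ 2) *
            (tdiv P (fderiv ℝ (WY u y₀) X) - m * Wd u y₀ (npr u X)) := by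
  obtain ⟨hL, CL, hL0, hCL, HL⟩ := Tube.lift_trace m n
  obtain ⟨hN, CN, hN0, hCN, HN⟩ := Tube.normal_trace m n
  obtain ⟨C₁, hC₁⟩ : ∃ C₁ : ℝ, C₁ = 7 * CL + 2 * CN + 5 + 18 * m := ⟨_, rfl⟩
  have hC₁0 : 0 < C₁ := by rw [hC₁]; positivity
  refine ⟨min (2 / 9) (min hL hN),
    min (1 / 2) (min (1 / (4 * (4 * C₁ + 576))) (1 / (2 * ((m : ℝ) + 1)))),
    8 * (102 * C₁ + 14406), lt_min (by norm_num) (lt_min hL0 hN0),
    lt_min (by norm_num) (lt_min (by positivity) (by positivity)), by positivity, ?_⟩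
  intro u ε a hu hε ha y₀ X hX P hP t ht0 ht hd hH
  have hε1 : ε ≤ 1 / 2 := hε.trans (min_le_left _ _)
  have hε2 : ε ≤ 1 / (4 * (4 * C₁ + 576)) :=
    hε.trans ((min_le_right _ _).trans (min_le_left _ _))
  have hε3 : ε ≤ 1 / (2 * ((m : ℝ) + 1)) :=
    hε.trans ((min_le_right _ _).trans (min_le_right _ _))
  have hg := hu.toGeo hε1
  have hX1 : X ∈ Tub u (2 / 9) := dg_Tub_mono u (min_le_left _ _) hX
  have hX2 : X ∈ Tub u hL := dg_Tub_mono u ((min_le_right _ _).trans (min_le_left _ _)) hX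
  have hX3 : X ∈ Tub u hN := dg_Tub_mono u ((min_le_right _ _).trans (min_le_right _ _)) hX
  have hEL := (HL ε u hg (fun y' => y' - y₀) (contDiff_id.sub contDiff_const) X hX2 P hP).2
  have hEN := (HN ε u hg X hX3 P hP).2
  have hκ : ε * (4 * (4 * C₁ + 576)) ≤ 1 := by rwa [le_div_iff₀ (by positivity)] at hε2
  have hmκ : (m : ℝ) * ε ≤ 1 / 2 := by
    have h1 : ε * (2 * ((m : ℝ) + 1)) ≤ 1 := by rwa [le_div_iff₀ (by positivity)] at hε3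
    have h2 : (m : ℝ) * ε = (ε * (2 * ((m : ℝ) + 1))) / 2 - ε := by ring
    linarith [hg.nonneg]
  have hT := dg_T_bound hg le_rfl hX1 y₀ hP ha ht0.le ht hd hmκ hCL.le hCN.le hH hEL hEN
  rw [← hC₁] at hT
  exact dg_pointwise hg le_rfl hX1 y₀ hP ht0 ht hd hmκ hC₁0.le hκ hT

/-- [P3] `d²` is the squared ambient distance to the centre up to a factor `1 + O(ε d)`;
`W = 1 + O(ε ρ)`. -/
theorem dsq_compare (m n : ℕ) : ∃ h₀ ε₁ C : ℝ, 0 < h₀ ∧ 0 < ε₁ ∧ 0 < C ∧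
    ∀ (u : E m → E n) (ε : ℝ), Flat4 ε u → ε ≤ ε₁ → ∀ (y₀ : E m) (X : E (m + n)), X ∈ Tub u h₀ →
      |‖X - Fg u y₀‖ ^ 2 - dsq u y₀ X| ≤ C * ε * Real.sqrt (dsq u y₀ X) * dsq u y₀ X ∧
      |Wd u y₀ (npr u X) - 1| ≤ C * ε * Real.sqrt (dsq u y₀ X) ∧
      ‖npr u X - y₀‖ ^ 2 ≤ dsq u y₀ X := by
  obtain ⟨CW, hCW, hW⟩ := gk_Wd_sub_one m n
  refine ⟨1 / 4, 1 / 3, 5 + CW, by norm_num, by norm_num, by positivity,
    fun u ε hu hε y₀ X hX => ?_⟩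
  have hg := hu.gk_geo hε
  have hε0 := hg.nonneg
  have h3 : ‖npr u X - y₀‖ ^ 2 ≤ dsq u y₀ X := by
    have := gk_norm_sq_le_rho2 u y₀ (npr u X)
    unfold dsq
    nlinarith [sq_nonneg ‖zz u X‖]
  have hd0 : 0 ≤ dsq u y₀ X := (sq_nonneg _).trans h3
  have h4 : ‖npr u X - y₀‖ ≤ Real.sqrt (dsq u y₀ X) := Real.le_sqrt_of_sq_le h3
  refine ⟨(gk_dsq_compare hg hX y₀).trans ?_, (hW ε u hg y₀ (npr u X)).trans ?_, h3⟩
  · have : 0 ≤ ε * Real.sqrt (dsq u y₀ X) * dsq u y₀ X := by positivity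
    nlinarith
  · calc CW * ε * ‖npr u X - y₀‖ ≤ CW * ε * Real.sqrt (dsq u y₀ X) := by gcongr
      _ ≤ (5 + CW) * ε * Real.sqrt (dsq u y₀ X) := by
          have : 0 ≤ ε * Real.sqrt (dsq u y₀ X) := by positivity
          nlinarith

/-- [P4] shifting the point by a small vector `w`: tilt (CO (6b.2)), projection, height. -/
theorem shift_pointwise (m n : ℕ) : ∃ h₀ ε₁ C : ℝ, 0 < h₀ ∧ 0 < ε₁ ∧ 0 < C ∧
    ∀ (u : E m → E n) (ε : ℝ), Flat4 ε u → ε ≤ ε₁ → ∀ (X w : E (m + n)), X ∈ Tub u h₀ →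
      ‖w‖ ≤ h₀ → ‖zz u X‖ ≤ h₀ →
      (∀ P : E (m + n) →L[ℝ] E (m + n), IsProj m P →
        tilt u P (X - w) ≤ 2 * tilt u P X + C * ε ^ 2 * ‖w‖ ^ 2) ∧
      ‖npr u (X - w) - npr u X + dFp (fderiv ℝ u (npr u X)) w‖
        ≤ C * ε * (‖w‖ ^ 2 + ‖w‖ * ‖zz u X‖) ∧
      ‖npr u (X - w) - npr u X‖ ≤ 2 * ‖w‖ := by
  refine ⟨1 / 9, 1 / 3, 72 * ((m + n : ℕ) : ℝ) + 21, by norm_num, by norm_num, by positivity,
    fun u ε hu hε X w hX hw _ => ?_⟩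
  have hg := hu.gk_geo hε
  have hε0 := hg.nonneg
  refine ⟨fun P hP => (gk_tilt_shift hg hε w hX hw hP).trans ?_,
    (gk_npr_taylor hg hε w hX hw).trans ?_, ?_⟩
  · have : 0 ≤ ε ^ 2 * ‖w‖ ^ 2 := by positivity
    nlinarith
  · have h1 : 0 ≤ ε * (‖w‖ ^ 2 + ‖w‖ * ‖zz u X‖) := by positivity
    have h2 : (0 : ℝ) ≤ ((m + n : ℕ) : ℝ) := Nat.cast_nonneg _
    nlinarith [mul_nonneg h2 h1]
  · have e2 : ‖X - w - X‖ = ‖w‖ := by simp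
    have h2 := gk_npr_lip (X' := X - w) hg hε hX (by rw [e2]; exact hw)
    rwa [e2] at h2

/-- [P5] the tangential part of a vector which is normal at `y₀`; its divergence
(`div_S (w^T) = H_S · w`, new fact of the tube package). -/
theorem tangential_part (m n : ℕ) : ∃ ε₁ C : ℝ, 0 < ε₁ ∧ 0 < C ∧
    ∀ (u : E m → E n) (ε : ℝ), Flat4 ε u → ε ≤ ε₁ → ∀ (w : E (m + n)),
      ContDiff ℝ 2 (fun y => dFp (fderiv ℝ u y) w) ∧
      (∀ y, divS u (fun y' => dFp (fderiv ℝ u y') w) y = inner ℝ (HS u y) w) ∧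
      (∀ y₀ y, Ph u y₀ w = 0 → ‖dFp (fderiv ℝ u y) w‖ ≤ C * ε * ‖y - y₀‖ * ‖w‖) := by
  refine ⟨1 / 3, 27 / 4, by norm_num, by norm_num, fun u ε hu hε w => ?_⟩
  have hg := hu.gk_geo hε
  exact ⟨(gk_contDiff_tan hu.smooth w).of_le (by norm_num), gk_divS_tan hg.c2 w,
    fun y₀ y hw => gk_norm_tan_le hg w y₀ y hw⟩

end Claimed.Agent.R322.Dens
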