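import Claimed.Agent.R322.Pack051
import Claimed.Agent.R322.Pack052
import Claimed.Agent.R322.Pack007
import Claimed.Agent.R322.Pack048

/-!
# CO Section 6b: the kernels in the graph chart (kit for `Dens/Expand.lean`, leaf E2, E3)

Prefix `kk_`.
-/

set_option autoImplicit false

open scoped ENNReal ContDiff Topology
open MeasureTheory

namespace Claimed.Agent.R322.Dens

open Claimed.Agent.R322.Tube Claimed.Agent.R322.Fn

local notation "adj" => ContinuousLinearMap.adjoint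
local notation "𝟙" => ContinuousLinearMap.id ℝ _

/-! ### A. real variable facts -/

theorem kk_contDiff_Phi : ContDiff ℝ 2 Phi := by
  have h0 : (2 : ℕ∞ω) = 1 + 1 := by norm_num
  rw [h0, contDiff_succ_iff_deriv]
  refine ⟨fun s => (Red.hasDerivAt_pospow (q := 4) (by norm_num) s).differentiableAt,
    fun h => absurd h (by simp), ?_⟩
  have : deriv Phi = fun s => -(((4 : ℕ) : ℝ) * (max (1 - s) 0) ^ (4 - 1)) :=
    funext fun s => (Red.hasDerivAt_pospow (q := 4) (by norm_num) s).deriv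
  rw [this]
  exact (contDiff_const.mul (Red.contDiff_pospow (q := 3) (by norm_num))).neg

theorem kk_Phi_lip {a b : ℝ} (ha : 0 ≤ a) (hb : 0 ≤ b) : |Phi a - Phi b| ≤ 4 * |a - b| := by
  unfold Phi
  obtain ⟨p, hp⟩ : ∃ p, p = max (1 - a) 0 := ⟨_, rfl⟩
  obtain ⟨q, hq⟩ : ∃ q, q = max (1 - b) 0 := ⟨_, rfl⟩
  have hp0 : 0 ≤ p := hp ▸ le_max_right _ _
  have hq0 : 0 ≤ q := hq ▸ le_max_right _ _
  have hp1 : p ≤ 1 := hp ▸ max_le (by linarith) zero_le_one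
  have hq1 : q ≤ 1 := hq ▸ max_le (by linarith) zero_le_one
  have hpq : |p - q| ≤ |a - b| := by
    rw [hp, hq]
    refine (abs_max_sub_max_le_abs _ _ _).trans (le_of_eq ?_)
    rw [show 1 - a - (1 - b) = -(a - b) by ring, abs_neg]
  rw [← hp, ← hq, show p ^ 4 - q ^ 4 = (p - q) * (p ^ 3 + p ^ 2 * q + p * q ^ 2 + q ^ 3) by ring,
    abs_mul, mul_comm]
  have h1 : |p ^ 3 + p ^ 2 * q + p * q ^ 2 + q ^ 3| ≤ 4 := by
    rw [abs_of_nonneg (by positivity)]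
    have a1 : p ^ 3 ≤ 1 := pow_le_one₀ hp0 hp1
    have a2 : q ^ 3 ≤ 1 := pow_le_one₀ hq0 hq1
    have a3 : p ^ 2 * q ≤ 1 := mul_le_one₀ (pow_le_one₀ hp0 hp1) hq0 hq1
    have a4 : p * q ^ 2 ≤ 1 := mul_le_one₀ hp1 (by positivity) (pow_le_one₀ hq0 hq1)
    linarith
  exact mul_le_mul h1 hpq (abs_nonneg _) (by norm_num)

theorem kk_Psi_lip {a b : ℝ} (ha : 0 ≤ a) (hb : 0 ≤ b) : |Psi a - Psi b| ≤ 24 * |a - b| := by
  unfold Psi
  obtain ⟨p, hp⟩ : ∃ p, p = max (1 - a) 0 := ⟨_, rfl⟩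
  obtain ⟨q, hq⟩ : ∃ q, q = max (1 - b) 0 := ⟨_, rfl⟩
  have hp0 : 0 ≤ p := hp ▸ le_max_right _ _
  have hq0 : 0 ≤ q := hq ▸ le_max_right _ _
  have hp1 : p ≤ 1 := hp ▸ max_le (by linarith) zero_le_one
  have hq1 : q ≤ 1 := hq ▸ max_le (by linarith) zero_le_one
  have hpq : |p - q| ≤ |a - b| := by
    rw [hp, hq]
    refine (abs_max_sub_max_le_abs _ _ _).trans (le_of_eq ?_)
    rw [show 1 - a - (1 - b) = -(a - b) by ring, abs_neg]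
  rw [← hp, ← hq, show 8 * p ^ 3 - 8 * q ^ 3 = (p - q) * (8 * (p ^ 2 + p * q + q ^ 2)) by ring,
    abs_mul, mul_comm]
  have h1 : |8 * (p ^ 2 + p * q + q ^ 2)| ≤ 24 := by
    rw [abs_of_nonneg (by positivity)]
    have a1 : p ^ 2 ≤ 1 := pow_le_one₀ hp0 hp1
    have a2 : q ^ 2 ≤ 1 := pow_le_one₀ hq0 hq1
    have a3 : p * q ≤ 1 := mul_le_one₀ hp1 hq0 hq1
    linarith
  exact mul_le_mul h1 hpq (abs_nonneg _) (by norm_num)

theorem kk_Phi_taylor (s r : ℝ) (hs : 0 ≤ s) (hr : 0 ≤ r) :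
    Phi (s + r) ≤ Phi s - Psi s * r / 2 + 6 * r ^ 2 := by
  unfold Phi Psi
  rcases le_total 1 s with h1 | h1
  · rw [max_eq_right (by linarith), max_eq_right (by linarith)]
    nlinarith [sq_nonneg r]
  · rw [max_eq_left (show 0 ≤ 1 - s by linarith)]
    obtain ⟨a, ha⟩ : ∃ a, a = 1 - s := ⟨_, rfl⟩
    have ha0 : 0 ≤ a := by linarith
    have ha1 : a ≤ 1 := by linarith
    rw [show 1 - (s + r) = a - r by rw [ha]; ring, ← ha]
    rcases le_total a r with h2 | h2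
    · rw [max_eq_right (by linarith)]
      have b1 : a ^ 3 ≤ a := by
        calc a ^ 3 = a * a ^ 2 := by ring
          _ ≤ a * 1 := by gcongr; exact pow_le_one₀ ha0 ha1
          _ = a := mul_one a
      have b2 : a ^ 3 * r ≤ r * r := by
        calc a ^ 3 * r ≤ a * r := by gcongr
          _ ≤ r * r := by gcongr
      nlinarith [pow_nonneg ha0 4]
    · rw [max_eq_left (by linarith)]
      have b1 : a ^ 2 ≤ 1 := pow_le_one₀ ha0 ha1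
      have b2 : r ^ 2 * (6 * a ^ 2 - 4 * a * r + r ^ 2) ≤ r ^ 2 * 6 := by
        gcongr
        nlinarith
      nlinarith

/-! ### B. the flat kernel -/

theorem kk_contDiff_flat (N : ℕ) : ContDiff ℝ 2 (fun x : E N => Phi (‖x‖ ^ 2)) :=
  kk_contDiff_Phi.comp (contDiff_norm_sq ℝ)

theorem kk_hasCompactSupport_flat (N : ℕ) : HasCompactSupport (fun x : E N => Phi (‖x‖ ^ 2)) := by
  refine HasCompactSupport.intro (isCompact_closedBall (0 : E N) 1) fun x hx => ?_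
  rw [Metric.mem_closedBall, dist_zero_right, not_le] at hx
  exact mk_Phi_zero (by nlinarith)

theorem kk_flat_bound (N : ℕ) : ∃ C : ℝ, 0 < C ∧ ∀ k : ℕ, k ≤ 2 → ∀ x : E N,
    ‖iteratedFDeriv ℝ k (fun x : E N => Phi (‖x‖ ^ 2)) x‖ ≤ C := by
  have h : ∀ k : ℕ, k ≤ 2 → ∃ C : ℝ, ∀ x : E N,
      ‖iteratedFDeriv ℝ k (fun x : E N => Phi (‖x‖ ^ 2)) x‖ ≤ C := fun k hk =>
    ((kk_contDiff_flat N).continuous_iteratedFDeriv (by exact_mod_cast hk)).bounded_above_of_compact_support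
      ((kk_hasCompactSupport_flat N).iteratedFDeriv k)
  obtain ⟨C0, h0⟩ := h 0 (by norm_num)
  obtain ⟨C1, h1⟩ := h 1 (by norm_num)
  obtain ⟨C2, h2⟩ := h 2 le_rfl
  refine ⟨|C0| + |C1| + |C2| + 1, by positivity, fun k hk x => ?_⟩
  interval_cases k
  · exact (h0 x).trans (by linarith [le_abs_self C0, abs_nonneg C1, abs_nonneg C2])
  · exact (h1 x).trans (by linarith [le_abs_self C1, abs_nonneg C0, abs_nonneg C2])
  · exact (h2 x).trans (by linarith [le_abs_self C2, abs_nonneg C1, abs_nonneg C0])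

/-! ### C. the kernel `Φ(ρ²/l²)` -/

variable {m n : ℕ} {u : E m → E n}

theorem kk_rho2_div (u : E m → E n) (y₀ y : E m) {l : ℝ} (hl : 0 < l) :
    rho2 u y₀ y / l ^ 2 = ‖(l⁻¹ • dF (fderiv ℝ u y₀)) (y - y₀)‖ ^ 2 := by
  unfold rho2
  rw [smul_apply, norm_smul, Real.norm_eq_abs, abs_of_pos (inv_pos.2 hl), mul_pow, inv_pow]
  ring

theorem kk_G_eq (u : E m → E n) (y₀ : E m) {l : ℝ} (hl : 0 < l) :
    (fun y => Phi (rho2 u y₀ y / l ^ 2))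
      = fun y => ((fun x : E (m + n) => Phi (‖x‖ ^ 2)) ∘ (l⁻¹ • dF (fderiv ℝ u y₀))) (y - y₀) := by
  funext y
  rw [kk_rho2_div u y₀ y hl]
  rfl

theorem kk_contDiff_G (u : E m → E n) (y₀ : E m) {l : ℝ} (hl : 0 < l) :
    ContDiff ℝ 2 (fun y => Phi (rho2 u y₀ y / l ^ 2)) := by
  rw [kk_G_eq u y₀ hl]
  exact ((kk_contDiff_flat (m + n)).comp (l⁻¹ • dF (fderiv ℝ u y₀)).contDiff).comp
    (contDiff_id.sub contDiff_const)

theorem kk_G_bound (m n : ℕ) : ∃ C : ℝ, 0 < C ∧ ∀ (u : E m → E n) (y₀ : E m),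
    ‖fderiv ℝ u y₀‖ ≤ 1 / 2 → ∀ l : ℝ, 0 < l → l ≤ 1 → ∀ k : ℕ, k ≤ 2 → ∀ y : E m,
      ‖iteratedFDeriv ℝ k (fun y => Phi (rho2 u y₀ y / l ^ 2)) y‖ ≤ C / l ^ 2 := by
  obtain ⟨C, hC, h⟩ := kk_flat_bound (m + n)
  refine ⟨C * (9 / 4), by positivity, fun u y₀ hs l hl hl1 k hk y => ?_⟩
  rw [kk_G_eq u y₀ hl, iteratedFDeriv_comp_sub,
    (l⁻¹ • dF (fderiv ℝ u y₀)).iteratedFDeriv_comp_right (kk_contDiff_flat (m + n)) _
      (by exact_mod_cast hk)]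
  refine (ContinuousMultilinearMap.norm_compContinuousLinearMap_le _ _).trans ?_
  rw [Finset.prod_const, Finset.card_univ, Fintype.card_fin]
  have h1 : ‖l⁻¹ • dF (fderiv ℝ u y₀)‖ ≤ 3 / 2 / l := by
    rw [norm_smul, Real.norm_eq_abs, abs_of_pos (inv_pos.2 hl), div_eq_mul_inv, mul_comm]
    gcongr
    exact (norm_dF_le _).trans (by linarith)
  have h2 : (1 : ℝ) ≤ 3 / 2 / l := by
    rw [le_div_iff₀ hl]; linarith
  have h3 : ‖l⁻¹ • dF (fderiv ℝ u y₀)‖ ^ k ≤ (3 / 2 / l) ^ 2 :=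
    (pow_le_pow_left₀ (norm_nonneg _) h1 k).trans (pow_le_pow_right₀ h2 hk)
  calc _ ≤ C * (3 / 2 / l) ^ 2 := mul_le_mul (h k hk _) h3 (by positivity) hC.le
    _ = C * (9 / 4) / l ^ 2 := by ring

/-! ### D. the weight `W` -/

theorem kk_contDiff_inv_vdens :
    ContDiff ℝ 2 (fun A : E m →L[ℝ] E n => (vdens A)⁻¹) :=
  (dg_contDiff_vdensA.of_le (by norm_cast)).inv fun A => (dg_vdens_pos A).ne'

theorem kk_inv_vdens_bound (m n : ℕ) : ∃ C : ℝ, 0 < C ∧ ∀ k : ℕ, k ≤ 2 →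
    ∀ A : E m →L[ℝ] E n, ‖A‖ ≤ 1 →
      ‖iteratedFDeriv ℝ k (fun A : E m →L[ℝ] E n => (vdens A)⁻¹) A‖ ≤ C := by
  have h : ∀ k : ℕ, k ≤ 2 → ∃ C : ℝ, ∀ A : E m →L[ℝ] E n, ‖A‖ ≤ 1 →
      ‖iteratedFDeriv ℝ k (fun A : E m →L[ℝ] E n => (vdens A)⁻¹) A‖ ≤ C := fun k hk => by
    obtain ⟨C, hC⟩ := (isCompact_closedBall (0 : E m →L[ℝ] E n) 1).exists_bound_of_continuousOn
      (kk_contDiff_inv_vdens.continuous_iteratedFDeriv (m := k)
        (by exact_mod_cast hk)).continuousOn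
    exact ⟨C, fun A hA => hC A (by simpa using hA)⟩
  obtain ⟨C0, h0⟩ := h 0 (by norm_num)
  obtain ⟨C1, h1⟩ := h 1 (by norm_num)
  obtain ⟨C2, h2⟩ := h 2 le_rfl
  refine ⟨|C0| + |C1| + |C2| + 1, by positivity, fun k hk x hx => ?_⟩
  interval_cases k
  · exact (h0 x hx).trans (by linarith [le_abs_self C0, abs_nonneg C1, abs_nonneg C2])
  · exact (h1 x hx).trans (by linarith [le_abs_self C1, abs_nonneg C0, abs_nonneg C2])
  · exact (h2 x hx).trans (by linarith [le_abs_self C2, abs_nonneg C1, abs_nonneg C0])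

theorem kk_W_bound (m n : ℕ) : ∃ C : ℝ, 0 < C ∧ ∀ (u : E m → E n) (ε : ℝ), Flat4 ε u →
    ε ≤ 1 / 3 → ∀ (y₀ : E m) (k : ℕ), k ≤ 2 → ∀ y : E m,
      ‖iteratedFDeriv ℝ k (Wd u y₀) y‖ ≤ C := by
  obtain ⟨C, hC, h⟩ := kk_inv_vdens_bound m n
  obtain ⟨Cv, hCv, hv⟩ := Lin.exists_vdens_bound m n
  refine ⟨Cv * (2 * C), by positivity, fun u ε hu hε y₀ k hk y => ?_⟩
  have hg := hu.gk_geo hε
  have hDu : ContDiff ℝ 2 (fderiv ℝ u) :=
    (contDiff_Du (k := 3) (by exact_mod_cast hu.smooth)).of_le (by norm_num)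
  have e : Wd u y₀ = fun y => vdens (fderiv ℝ u y₀) •
      ((fun A : E m →L[ℝ] E n => (vdens A)⁻¹) ∘ fderiv ℝ u) y := by
    funext y
    simp only [Wd, Function.comp, smul_eq_mul, div_eq_mul_inv]
  have hc : ContDiff ℝ 2 ((fun A : E m →L[ℝ] E n => (vdens A)⁻¹) ∘ fderiv ℝ u) :=
    kk_contDiff_inv_vdens.comp hDu
  rw [e, iteratedFDeriv_const_smul_apply' ((hc.of_le (by exact_mod_cast hk)).contDiffAt),
    norm_smul, Real.norm_eq_abs, abs_of_nonneg (vdens_nonneg _)]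
  have h1 := norm_iteratedFDeriv_comp_le (n := k) (N := 2) (C := C) (D := 1)
    (kk_contDiff_inv_vdens (m := m) (n := n)) hDu (by exact_mod_cast hk) y
    (fun i hi => h i (hi.trans hk) _ ((hg.slope y).trans (by norm_num)))
    (fun i hi1 hi2 => by
      rw [norm_iteratedFDeriv_fderiv, one_pow]
      exact (hu.geo (i + 1) (by omega) (by omega) y).trans (by linarith))
  have h2 : ((k.factorial : ℕ) : ℝ) ≤ 2 := by
    interval_cases k <;> norm_num [Nat.factorial]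
  have h3 : (k.factorial : ℝ) * C * 1 ^ k ≤ 2 * C := by
    rw [one_pow, mul_one]; gcongr
  exact mul_le_mul (hv _ ((hg.slope y₀).trans (by norm_num))) (h1.trans h3) (norm_nonneg _) hCv.le

/-! ### E. the product -/

theorem kk_q_bound (m n : ℕ) : ∃ C : ℝ, 0 < C ∧ ∀ (u : E m → E n) (ε : ℝ), Flat4 ε u →
    ε ≤ 1 / 3 → ∀ (y₀ : E m) (l : ℝ), 0 < l → l ≤ 1 → ∀ k : ℕ, k ≤ 2 → ∀ y : E m,
      ‖iteratedFDeriv ℝ k (fun y => Wd u y₀ y * Phi (rho2 u y₀ y / l ^ 2)) y‖ ≤ C / l ^ 2 := by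
  obtain ⟨CW, hCW, hW⟩ := kk_W_bound m n
  obtain ⟨CG, hCG, hG⟩ := kk_G_bound m n
  refine ⟨4 * (CW * CG), by positivity, fun u ε hu hε y₀ l hl hl1 k hk y => ?_⟩
  have hg := hu.gk_geo hε
  have h1 := norm_iteratedFDeriv_mul_le (N := 2) (n := k)
    ((dg_contDiff_Wd hu.smooth y₀).of_le (by norm_num)) (kk_contDiff_G u y₀ hl) y
    (by exact_mod_cast hk)
  refine h1.trans ?_
  have h2 : ∀ i ∈ Finset.range (k + 1),
      (k.choose i : ℝ) * ‖iteratedFDeriv ℝ i (Wd u y₀) y‖ *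
        ‖iteratedFDeriv ℝ (k - i) (fun y => Phi (rho2 u y₀ y / l ^ 2)) y‖
      ≤ (k.choose i : ℝ) * (CW * (CG / l ^ 2)) := fun i hi => by
    rw [Finset.mem_range] at hi
    rw [mul_assoc]
    refine mul_le_mul_of_nonneg_left ?_ (Nat.cast_nonneg _)
    exact mul_le_mul (hW u ε hu hε y₀ i (by omega) y)
      (hG u y₀ (hg.slope y₀) l hl hl1 (k - i) (by omega) y) (norm_nonneg _) hCW.le
  refine (Finset.sum_le_sum h2).trans ?_
  rw [← Finset.sum_mul]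
  have h3 : (∑ i ∈ Finset.range (k + 1), (k.choose i : ℝ)) = 2 ^ k := by
    exact_mod_cast Nat.sum_range_choose k
  have h4 : (2 : ℝ) ^ k ≤ 4 := by
    calc (2 : ℝ) ^ k ≤ 2 ^ 2 := pow_le_pow_right₀ (by norm_num) hk
      _ = 4 := by norm_num
  rw [h3]
  calc (2 : ℝ) ^ k * (CW * (CG / l ^ 2)) ≤ 4 * (CW * (CG / l ^ 2)) := by gcongr
    _ = 4 * (CW * CG) / l ^ 2 := by ring

/-! ### F. the exact reference integral -/

theorem kk_exists_T (A : E m →L[ℝ] E n) :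
    ∃ T : E m →L[ℝ] E m, (∀ v, ‖T v‖ = ‖dF A v‖) ∧ |dtm T| = vdens A := by
  obtain ⟨ι, h1, h2⟩ := Tube.IsProj.exists_iso (isProj_PhA A)
  have hg : adj (adj ι ∘L dF A) ∘L (adj ι ∘L dF A) = gmat A := by
    rw [ContinuousLinearMap.adjoint_comp, ContinuousLinearMap.adjoint_adjoint,
      ContinuousLinearMap.comp_assoc, ← ContinuousLinearMap.comp_assoc ι, h2, PhA_comp_dF,
      adjoint_dF_comp_dF]
  refine ⟨adj ι ∘L dF A, fun v => ?_, ?_⟩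
  · have e1 : ‖(adj ι ∘L dF A) v‖ ^ 2 = ‖dF A v‖ ^ 2 := by
      rw [← real_inner_self_eq_norm_sq, ← ContinuousLinearMap.adjoint_inner_left,
        ← ContinuousLinearMap.comp_apply, hg, ← adjoint_dF_comp_dF,
        ContinuousLinearMap.comp_apply, ContinuousLinearMap.adjoint_inner_left,
        real_inner_self_eq_norm_sq]
    exact (pow_left_inj₀ (norm_nonneg _) (norm_nonneg _) two_ne_zero).1 e1
  · have h3 := Base.Area.nd_sq (adj ι ∘L dF A)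
    rw [hg] at h3
    have h4 : Base.Area.nd (adj ι ∘L dF A) = |dtm (adj ι ∘L dF A)| :=
      LinearMap.normDet_eq_abs_det _
    have h5 : (gmat A).det = vdens A ^ 2 := (vdens_sq A).symm
    rw [h4, h5] at h3
    exact (pow_left_inj₀ (abs_nonneg _) (vdens_nonneg _) two_ne_zero).1 h3

theorem kk_integral_flat (A : E m →L[ℝ] E n) (y₀ : E m) {l : ℝ} (hl : 0 < l) :
    vdens A * ∫ y, Phi (‖dF A (y - y₀)‖ ^ 2 / l ^ 2) ∂μH[(m : ℝ)] = l ^ m * cPhi m := by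
  obtain ⟨T, hT, hdet⟩ := kk_exists_T A
  have hv := dg_vdens_pos A
  set S : E m →ₗ[ℝ] E m := l⁻¹ • (T : E m →ₗ[ℝ] E m) with hS
  have hdS : LinearMap.det S = (l⁻¹) ^ m * dtm T := by
    rw [hS, LinearMap.det_smul, finrank_euclideanSpace_fin]
    rfl
  have hdT : dtm T ≠ 0 := by
    intro h0
    rw [h0, abs_zero] at hdet
    exact hv.ne hdet
  have hdS0 : LinearMap.det S ≠ 0 := by
    rw [hdS]
    exact mul_ne_zero (pow_ne_zero _ (inv_ne_zero hl.ne')) hdT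
  have e1 : ∫ y, Phi (‖dF A (y - y₀)‖ ^ 2 / l ^ 2) ∂μH[(m : ℝ)]
      = ∫ y, Phi (‖dF A y‖ ^ 2 / l ^ 2) ∂μH[(m : ℝ)] :=
    integral_sub_right_eq_self (fun y => Phi (‖dF A y‖ ^ 2 / l ^ 2)) y₀
  have e2 : ∀ y : E m, Phi (‖dF A y‖ ^ 2 / l ^ 2) = (fun x : E m => Phi (‖x‖ ^ 2)) (S y) := by
    intro y
    have : ‖S y‖ = l⁻¹ * ‖dF A y‖ := by
      rw [hS, LinearMap.smul_apply, norm_smul, Real.norm_eq_abs, abs_of_pos (inv_pos.2 hl)]
      congr 1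
      exact hT y
    simp only [this, mul_pow, inv_pow]
    congr 1
    ring
  have hSm : Measurable S := (LinearMap.continuous_of_finiteDimensional S).measurable
  have hK : Continuous (fun x : E m => Phi (‖x‖ ^ 2)) := (kk_contDiff_flat m).continuous
  have e3 : ∫ y, (fun x : E m => Phi (‖x‖ ^ 2)) (S y) ∂μH[(m : ℝ)]
      = |(LinearMap.det S)⁻¹| * cPhi m := by
    rw [← integral_map hSm.aemeasurable hK.aestronglyMeasurable,
      Measure.map_linearMap_addHaar_eq_smul_addHaar _ hdS0, integral_smul_measure,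
      ENNReal.toReal_ofReal (abs_nonneg _), smul_eq_mul]
    rfl
  rw [e1, integral_congr_ae (Filter.Eventually.of_forall e2), e3, hdS, mul_inv, abs_mul,
    abs_inv (dtm T), hdet, inv_pow, inv_inv, abs_of_pos (pow_pos hl m)]
  field_simp

theorem kk_integral (u : E m → E n) (y₀ : E m) {l : ℝ} (hl : 0 < l) :
    ∫ y, Wd u y₀ y * Phi (rho2 u y₀ y / l ^ 2) * vdens (fderiv ℝ u y) ∂μH[(m : ℝ)]
      = l ^ m * cPhi m := by
  rw [← kk_integral_flat (fderiv ℝ u y₀) y₀ hl, ← integral_const_mul]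
  refine integral_congr_ae (Filter.Eventually.of_forall fun y => ?_)
  have hv := dg_vdens_pos (fderiv ℝ u y)
  simp only [Wd, rho2]
  field_simp

/-! ### G. comparison with the flat kernels -/

theorem kk_compare_T1 {F : ℝ → ℝ} {B : ℝ} (hB0 : 0 ≤ B) (hB : ∀ s, 0 ≤ s → |F s| ≤ B)
    (h0 : ∀ s, 1 ≤ s → F s = 0)
    {ε l r ρ2 W CW : ℝ} (hε0 : 0 ≤ ε) (hl : 0 < l) (hl1 : l ≤ 1)
    (hr : 0 ≤ r) (hρ1 : r ^ 2 ≤ ρ2) (hCW : 0 ≤ CW) (hW : |W - 1| ≤ CW * ε * r) :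
    |(W - 1) * F (ρ2 / l ^ 2)| ≤ CW * B * ε := by
  have hl2 : 0 < l ^ 2 := by positivity
  have hl21 : l ^ 2 ≤ 1 := pow_le_one₀ hl.le hl1
  have hρ0 : 0 ≤ ρ2 := (sq_nonneg r).trans hρ1
  by_cases h1 : 1 ≤ ρ2 / l ^ 2
  · rw [h0 _ h1, mul_zero, abs_zero]; positivity
  · have h2 : ρ2 < l ^ 2 := by
      rw [not_le, div_lt_one hl2] at h1; exact h1
    have h3 : r ≤ 1 := (sq_le_one_iff₀ hr).1 (by linarith)
    have h4 : |W - 1| ≤ CW * ε := hW.trans (mul_le_of_le_one_right (by positivity) h3)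
    rw [abs_mul]
    calc |W - 1| * |F (ρ2 / l ^ 2)| ≤ (CW * ε) * B :=
          mul_le_mul h4 (hB _ (by positivity)) (abs_nonneg _) (by positivity)
      _ = CW * B * ε := by ring

theorem kk_compare_sq {ε δ l r r' ρ2 : ℝ} (hε0 : 0 ≤ ε) (hε1 : ε ≤ 1) (hl : 0 < l) (hl1 : l ≤ 1)
    (hr : 0 ≤ r) (hr' : 0 ≤ r') (hrr : |r - r'| ≤ δ) (hρ1 : r ^ 2 ≤ ρ2)
    (hρ2 : ρ2 ≤ (1 + ε ^ 2) * r ^ 2) (h1 : δ < l) (h2 : r < 2 * l) :
    |ρ2 - r' ^ 2| ≤ 5 * (ε + δ) := by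
  have hl21 : l ^ 2 ≤ 1 := pow_le_one₀ hl.le hl1
  have hδ0 : 0 ≤ δ := (abs_nonneg _).trans hrr
  have h3 : r' ≤ 3 * l := by
    have := (abs_le.1 hrr).1
    linarith
  have hr2 : r ^ 2 ≤ 4 := by
    have : r ≤ 2 := by linarith
    calc r ^ 2 ≤ 2 ^ 2 := by gcongr
      _ = 4 := by norm_num
  have hεε : ε ^ 2 ≤ ε := by
    calc ε ^ 2 = ε * ε := by ring
      _ ≤ ε * 1 := by gcongr
      _ = ε := mul_one ε
  have c1 : |ρ2 - r ^ 2| ≤ 4 * ε := by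
    rw [abs_of_nonneg (by linarith)]
    calc ρ2 - r ^ 2 ≤ ε ^ 2 * r ^ 2 := by linarith
      _ ≤ ε * 4 := by gcongr
      _ = 4 * ε := by ring
  have c2 : |r ^ 2 - r' ^ 2| ≤ 5 * δ := by
    rw [show r ^ 2 - r' ^ 2 = (r - r') * (r + r') by ring, abs_mul,
      abs_of_nonneg (show 0 ≤ r + r' by linarith)]
    calc |r - r'| * (r + r') ≤ δ * 5 := by gcongr; linarith
      _ = 5 * δ := by ring
  calc |ρ2 - r' ^ 2| = |(ρ2 - r ^ 2) + (r ^ 2 - r' ^ 2)| := by congr 1; ring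
    _ ≤ 4 * ε + 5 * δ := (abs_add_le _ _).trans (add_le_add c1 c2)
    _ ≤ 5 * (ε + δ) := by linarith

theorem kk_compare_T2 {F : ℝ → ℝ} {B L : ℝ} (hB0 : 0 ≤ B) (hL0 : 0 ≤ L)
    (hB : ∀ s, 0 ≤ s → |F s| ≤ B)
    (hL : ∀ a b, 0 ≤ a → 0 ≤ b → |F a - F b| ≤ L * |a - b|) (h0 : ∀ s, 1 ≤ s → F s = 0)
    {ε δ l r r' ρ2 : ℝ} (hε0 : 0 ≤ ε) (hε1 : ε ≤ 1) (hl : 0 < l) (hl1 : l ≤ 1)
    (hr : 0 ≤ r) (hr' : 0 ≤ r') (hrr : |r - r'| ≤ δ) (hρ1 : r ^ 2 ≤ ρ2)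
    (hρ2 : ρ2 ≤ (1 + ε ^ 2) * r ^ 2) :
    |F (ρ2 / l ^ 2) - F (r' ^ 2 / l ^ 2)| ≤ (2 * B + 5 * L) * ((ε + δ) / l ^ 2) := by
  have hl2 : 0 < l ^ 2 := by positivity
  have hl21 : l ^ 2 ≤ 1 := pow_le_one₀ hl.le hl1
  have hδ0 : 0 ≤ δ := (abs_nonneg _).trans hrr
  have hρ0 : 0 ≤ ρ2 := (sq_nonneg r).trans hρ1
  have ha0 : 0 ≤ ρ2 / l ^ 2 := by positivity
  have hb0 : 0 ≤ r' ^ 2 / l ^ 2 := by positivity
  have hK0 : 0 ≤ (ε + δ) / l ^ 2 := by positivity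
  rcases le_or_gt l δ with h1 | h1
  · have h2 : 1 ≤ (ε + δ) / l ^ 2 := by
      rw [le_div_iff₀ hl2, one_mul]
      have : l ^ 2 ≤ l := by
        calc l ^ 2 = l * l := by ring
          _ ≤ l * 1 := by gcongr
          _ = l := mul_one l
      linarith
    have h3 : |F (ρ2 / l ^ 2) - F (r' ^ 2 / l ^ 2)| ≤ 2 * B := by
      have := abs_sub (F (ρ2 / l ^ 2)) (F (r' ^ 2 / l ^ 2))
      linarith [hB _ ha0, hB _ hb0]
    calc _ ≤ 2 * B := h3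
      _ = (2 * B + 5 * 0) * 1 := by ring
      _ ≤ (2 * B + 5 * L) * ((ε + δ) / l ^ 2) := by gcongr
  · rcases le_or_gt (2 * l) r with h2 | h2
    · have h3 : 1 ≤ ρ2 / l ^ 2 := by
        rw [le_div_iff₀ hl2, one_mul]
        have : l ^ 2 ≤ r ^ 2 := by
          have : l ≤ r := by linarith
          gcongr
        linarith
      have h4 : l ≤ r' := by
        have := (abs_le.1 hrr).2
        linarith
      have h5 : 1 ≤ r' ^ 2 / l ^ 2 := by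
        rw [le_div_iff₀ hl2, one_mul]
        gcongr
      rw [h0 _ h3, h0 _ h5, sub_zero, abs_zero]
      positivity
    · have h4 := kk_compare_sq hε0 hε1 hl hl1 hr hr' hrr hρ1 hρ2 h1 h2
      have h5 : |ρ2 / l ^ 2 - r' ^ 2 / l ^ 2| ≤ 5 * ((ε + δ) / l ^ 2) := by
        rw [← sub_div, abs_div, abs_of_pos hl2, ← mul_div_assoc]
        gcongr
      calc _ ≤ L * |ρ2 / l ^ 2 - r' ^ 2 / l ^ 2| := hL _ _ ha0 hb0
        _ ≤ L * (5 * ((ε + δ) / l ^ 2)) := by gcongr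
        _ = (2 * 0 + 5 * L) * ((ε + δ) / l ^ 2) := by ring
        _ ≤ (2 * B + 5 * L) * ((ε + δ) / l ^ 2) := by gcongr

theorem kk_compare {F : ℝ → ℝ} {B L : ℝ} (hB0 : 0 ≤ B) (hL0 : 0 ≤ L)
    (hB : ∀ s, 0 ≤ s → |F s| ≤ B)
    (hL : ∀ a b, 0 ≤ a → 0 ≤ b → |F a - F b| ≤ L * |a - b|) (h0 : ∀ s, 1 ≤ s → F s = 0)
    {ε δ l r r' ρ2 W CW : ℝ} (hε0 : 0 ≤ ε) (hε1 : ε ≤ 1) (hl : 0 < l) (hl1 : l ≤ 1)
    (hr : 0 ≤ r) (hr' : 0 ≤ r') (hrr : |r - r'| ≤ δ) (hρ1 : r ^ 2 ≤ ρ2)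
    (hρ2 : ρ2 ≤ (1 + ε ^ 2) * r ^ 2) (hCW : 0 ≤ CW) (hW : |W - 1| ≤ CW * ε * r) :
    |W * F (ρ2 / l ^ 2) - F (r' ^ 2 / l ^ 2)| ≤ (CW * B + 2 * B + 5 * L) * (ε + δ) / l ^ 2 := by
  have hl2 : 0 < l ^ 2 := by positivity
  have hl21 : l ^ 2 ≤ 1 := pow_le_one₀ hl.le hl1
  have hδ0 : 0 ≤ δ := (abs_nonneg _).trans hrr
  have T1 := kk_compare_T1 hB0 hB h0 hε0 hl hl1 hr hρ1 hCW hW
  have T2 := kk_compare_T2 hB0 hL0 hB hL h0 hε0 hε1 hl hl1 hr hr' hrr hρ1 hρ2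
  have hK1 : ε ≤ (ε + δ) / l ^ 2 := by
    rw [le_div_iff₀ hl2]
    calc ε * l ^ 2 ≤ ε * 1 := by gcongr
      _ ≤ ε + δ := by linarith
  have e : W * F (ρ2 / l ^ 2) - F (r' ^ 2 / l ^ 2)
      = (W - 1) * F (ρ2 / l ^ 2) + (F (ρ2 / l ^ 2) - F (r' ^ 2 / l ^ 2)) := by ring
  rw [e]
  refine (abs_add_le _ _).trans ?_
  have h3 : CW * B * ε ≤ CW * B * ((ε + δ) / l ^ 2) := by gcongr
  calc _ ≤ CW * B * ((ε + δ) / l ^ 2) + (2 * B + 5 * L) * ((ε + δ) / l ^ 2) :=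
        add_le_add (T1.trans h3) T2
    _ = (CW * B + 2 * B + 5 * L) * (ε + δ) / l ^ 2 := by ring

/-! ### H. assembly -/

theorem kk_rho2_nonneg (u : E m → E n) (y₀ y : E m) : 0 ≤ rho2 u y₀ y := sq_nonneg _

theorem kk_continuous_rho2 (u : E m → E n) (y₀ : E m) : Continuous (rho2 u y₀) := by
  unfold rho2
  exact (((dF (fderiv ℝ u y₀)).continuous.comp (continuous_id.sub continuous_const)).norm).pow 2

theorem kk_tsupport {F : ℝ → ℝ} (h0 : ∀ s, 1 ≤ s → F s = 0) (u : E m → E n) (y₀ : E m) {l : ℝ}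
    (hl : 0 < l) :
    tsupport (fun y => Wd u y₀ y * F (rho2 u y₀ y / l ^ 2)) ⊆ Metric.closedBall y₀ l := by
  refine closure_minimal (fun y hy => ?_) Metric.isClosed_closedBall
  have hl2 : 0 < l ^ 2 := by positivity
  have h1 : ¬ (1 ≤ rho2 u y₀ y / l ^ 2) := fun h => hy (by simp only [h0 _ h, mul_zero])
  rw [not_le, div_lt_one hl2] at h1
  have h2 := gk_norm_sq_le_rho2 u y₀ y
  rw [Metric.mem_closedBall, dist_eq_norm]
  exact (pow_le_pow_iff_left₀ (norm_nonneg _) hl.le two_ne_zero).1 (by linarith)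

theorem kk_rho2_le {ε : ℝ} {y₀ : E m} (hs : ‖fderiv ℝ u y₀‖ ≤ ε) (y : E m) :
    rho2 u y₀ y ≤ (1 + ε ^ 2) * ‖y - y₀‖ ^ 2 := by
  unfold rho2
  rw [dF_apply, norm_sq_mkHV]
  have h1 : ‖fderiv ℝ u y₀ (y - y₀)‖ ≤ ε * ‖y - y₀‖ :=
    ((fderiv ℝ u y₀).le_opNorm _).trans (by gcongr)
  have h2 : ‖fderiv ℝ u y₀ (y - y₀)‖ ^ 2 ≤ (ε * ‖y - y₀‖) ^ 2 := by gcongr
  nlinarith

theorem kk_kernel_facts (m n : ℕ) : ∃ ε₁ C' : ℝ, 0 < ε₁ ∧ 0 < C' ∧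
    ∀ (u : E m → E n) (ε : ℝ), Flat4 ε u → 0 ≤ ε → ε ≤ ε₁ → ∀ (y₀ : E m) (l : ℝ), 0 < l → l ≤ 1 →
      ContDiff ℝ 2 (fun y => Wd u y₀ y * Phi (rho2 u y₀ y / l ^ 2)) ∧
      tsupport (fun y => Wd u y₀ y * Phi (rho2 u y₀ y / l ^ 2)) ⊆ Metric.closedBall y₀ l ∧
      tsupport (fun y => Wd u y₀ y * Psi (rho2 u y₀ y / l ^ 2)) ⊆ Metric.closedBall y₀ l ∧
      Continuous (fun y => Wd u y₀ y * Psi (rho2 u y₀ y / l ^ 2)) ∧
      (∀ y, |Wd u y₀ y * Phi (rho2 u y₀ y / l ^ 2)| ≤ C' ∧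
        ‖fderiv ℝ (fun y => Wd u y₀ y * Phi (rho2 u y₀ y / l ^ 2)) y‖ ≤ C' / l ^ 2 ∧
        ‖iteratedFDeriv ℝ 2 (fun y => Wd u y₀ y * Phi (rho2 u y₀ y / l ^ 2)) y‖ ≤ C' / l ^ 4) ∧
      ∫ y, Wd u y₀ y * Phi (rho2 u y₀ y / l ^ 2) * vdens (fderiv ℝ u y) ∂μH[(m : ℝ)]
        = l ^ m * cPhi m ∧
      (∀ x y : E m, |Wd u y₀ y * Phi (rho2 u y₀ y / l ^ 2) - Phi (‖y - x‖ ^ 2 / l ^ 2)|
          ≤ C' * (ε + ‖y₀ - x‖) / l ^ 2 ∧
        |Wd u y₀ y * Psi (rho2 u y₀ y / l ^ 2) - Psi (‖y - x‖ ^ 2 / l ^ 2)|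
          ≤ C' * (ε + ‖y₀ - x‖) / l ^ 2) := by
  obtain ⟨CW, hCW, hW⟩ := kk_W_bound m n
  obtain ⟨Cq, hCq, hq⟩ := kk_q_bound m n
  obtain ⟨C1, hC1, h1⟩ := gk_Wd_sub_one m n
  refine ⟨1 / 3, CW + Cq + (C1 * 1 + 2 * 1 + 5 * 4) + (C1 * 8 + 2 * 8 + 5 * 24), by norm_num,
    by positivity, fun u ε hu hε0 hε y₀ l hl hl1 => ?_⟩
  have hg := hu.gk_geo hε
  have hl2 : 0 < l ^ 2 := by positivity
  have hl21 : l ^ 2 ≤ 1 := pow_le_one₀ hl.le hl1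
  have hWc : ContDiff ℝ 3 (Wd u y₀) := dg_contDiff_Wd hu.smooth y₀
  have hslope : ‖fderiv ℝ u y₀‖ ≤ ε := by
    have := hu.geo 1 le_rfl (by norm_num) y₀
    rwa [norm_iteratedFDeriv_one] at this
  refine ⟨(hWc.of_le (by norm_num)).mul (kk_contDiff_G u y₀ hl),
    kk_tsupport (fun s hs => mk_Phi_zero hs) u y₀ hl,
    kk_tsupport (fun s hs => mk_Psi_zero hs) u y₀ hl,
    hWc.continuous.mul (mk_continuous_Psi.comp ((kk_continuous_rho2 u y₀).div_const _)),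
    fun y => ⟨?_, ?_, ?_⟩, kk_integral u y₀ hl, fun x y => ?_⟩
  · have a1 : |Wd u y₀ y| ≤ CW := by
      have := hW u ε hu hε y₀ 0 (by norm_num) y
      rwa [norm_iteratedFDeriv_zero, Real.norm_eq_abs] at this
    have a2 : |Phi (rho2 u y₀ y / l ^ 2)| ≤ 1 := by
      rw [abs_of_nonneg (mk_Phi_nonneg _)]
      exact mk_Phi_le (div_nonneg (kk_rho2_nonneg u y₀ y) hl2.le)
    rw [abs_mul]
    calc |Wd u y₀ y| * |Phi (rho2 u y₀ y / l ^ 2)| ≤ CW * 1 :=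
          mul_le_mul a1 a2 (abs_nonneg _) hCW.le
      _ ≤ _ := by linarith
  · rw [← norm_iteratedFDeriv_one]
    refine (hq u ε hu hε y₀ l hl hl1 1 (by norm_num) y).trans ?_
    gcongr
    linarith
  · refine (hq u ε hu hε y₀ l hl hl1 2 le_rfl y).trans ?_
    have a1 : l ^ 4 ≤ l ^ 2 := by
      calc l ^ 4 = l ^ 2 * l ^ 2 := by ring
        _ ≤ l ^ 2 * 1 := by gcongr
        _ = l ^ 2 := mul_one _
    calc Cq / l ^ 2 ≤ Cq / l ^ 4 := div_le_div_of_nonneg_left hCq.le (by positivity) a1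
      _ ≤ _ := by gcongr; linarith
  · have hrr : |‖y - y₀‖ - ‖y - x‖| ≤ ‖y₀ - x‖ := by
      refine (abs_norm_sub_norm_le _ _).trans (le_of_eq ?_)
      rw [← norm_neg]
      congr 1
      abel
    have hδ0 := norm_nonneg (y₀ - x)
    have p1 := kk_compare (F := Phi) (B := 1) (L := 4) zero_le_one (by norm_num)
      (fun s hs => by rw [abs_of_nonneg (mk_Phi_nonneg _)]; exact mk_Phi_le hs)
      (fun a b ha hb => kk_Phi_lip ha hb) (fun s hs => mk_Phi_zero hs) hε0 (by linarith) hl hl1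
      (norm_nonneg (y - y₀)) (norm_nonneg (y - x)) hrr (gk_norm_sq_le_rho2 u y₀ y)
      (kk_rho2_le hslope y) hC1.le (h1 ε u hg y₀ y)
    have p2 := kk_compare (F := Psi) (B := 8) (L := 24) (by norm_num) (by norm_num)
      (fun s hs => by rw [abs_of_nonneg (mk_Psi_nonneg _)]; exact mk_Psi_le hs)
      (fun a b ha hb => kk_Psi_lip ha hb) (fun s hs => mk_Psi_zero hs) hε0 (by linarith) hl hl1
      (norm_nonneg (y - y₀)) (norm_nonneg (y - x)) hrr (gk_norm_sq_le_rho2 u y₀ y)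
      (kk_rho2_le hslope y) hC1.le (h1 ε u hg y₀ y)
    have hs0 : 0 ≤ ε + ‖y₀ - x‖ := by positivity
    refine ⟨p1.trans ?_, p2.trans ?_⟩
    · exact div_le_div_of_nonneg_right (mul_le_mul_of_nonneg_right (by linarith) hs0) hl2.le
    · exact div_le_div_of_nonneg_right (mul_le_mul_of_nonneg_right (by linarith) hs0) hl2.le

end Claimed.Agent.R322.Dens
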