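import Claimed.Agent.R322.Pack052
import Claimed.Agent.R322.Dens.KernelKit
import Claimed.Agent.R322.Lin.Quant
import Claimed.Agent.R322.Pack012
import Claimed.Agent.R322.Pack007

/-!
# CO Section 6b: expansion of `I(X₀,l)` at a fixed radius (leaves E1-E4)

`w = z(X₀)`, `y₀ = π X₀`, `y = π X`, `z = z(X)`, `y' = π(X - w)`, `z' = z(X - w)`,
`q(y) = W(y) Φ(ρ²(y)/l²)`, `q_Ψ(y) = W(y) Ψ(ρ²(y)/l²)`.

1. Taylor: `Φ((ρ² + |z'|²)/l²) ≤ Φ(ρ²/l²) - Ψ(ρ²/l²) |z'|²/(2 l²) + 6 |z'|⁴/l⁴`  (`Φ'' ≤ 12`).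
2. `shift_test`: `∫ q(y') dμ = ∫ q(y) dμ + O(ε a² ‖q‖_{C²})`: `shift_pointwise`, Taylor, the first order
   term is `- ∫ Dq(y) v(y) dν`, `v = dFp(Du) w`, `|v| ≤ C ε a`; `ν = Q vol_S + M`, `|M| ≤ C a²`;
   `∫ Dq·v dvol_S = - ∫ q div_S v dvol_S = - ∫ q H·w dvol_S` (`tangential_part`, `divS_integral`).
3. `∫ q dvol_S = l^m c_Φ` (linear change of variables `y ↦ dF(y₀)(y - y₀)`, Jacobian `√g(y₀)`;
   `MeasureTheory.Measure.addHaar_image_linearMap` / isometry invariance of `μH[m]`).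
4. `|z' - (z - w)| = |F y - F y'| ≤ C ε a`; `|z - w|² ≥ |z|² - 2 w·z`; `q_Ψ ≥ 0`.
5. kernels: `|q - Φ(|· - x|²/l²)| + |q_Ψ - Ψ(|· - x|²/l²)| ≤ C (ε + |y₀ - x|)/l²` uniformly.
6. the mixed term: `w·∫ q_Ψ(y) z dμ`, replace `q_Ψ` by `l^m psiK x l` (error `≤ C sup|..| a · a`),
   expand `w` in the standard basis, `|w_k| ≤ C a`, hypothesis on the first moment.
-/

set_option autoImplicit false

open scoped ENNReal ContDiff Topology
open MeasureTheory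

namespace Claimed.Agent.R322.Dens

open Claimed.Agent.R322.Tube Claimed.Agent.R322.Fn Claimed.Agent.R322.Lin

variable {m n : ℕ}

/-- [E0] the reference volume integral of a divergence vanishes (chart form of `divS`). -/
theorem divS_integral (N : NCyl m n) (hu : ContDiff ℝ 2 N.u) (Xc : E m → E m)
    (hX : ContDiff ℝ 1 Xc) (hc : HasCompactSupport Xc) (hs : tsupport Xc ⊆ N.Ω) :
    ∫ y, divS N.u Xc y ∂N.volS = 0 :=
  Lin.divS_integral' N hu Xc hX hc hs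

/-- [E1] **translated base test**, CO (6b.11). -/
theorem shift_test (m n Q : ℕ) (hm : 1 ≤ m) : ∃ h₀ : ℝ, 0 < h₀ ∧ ∀ C : ℝ, ∃ ε₁ C' : ℝ, 0 < ε₁ ∧ 0 < C' ∧
    ∀ (N : NCyl m n) (a ε : ℝ) (X₀ : E (m + n)), Ctr N Q a C ε X₀ → N.h ≤ h₀ → a ≤ ε₁ → ε ≤ ε₁ →
    ∀ (q : E m → ℝ) (A : ℝ), ContDiff ℝ 2 q → tsupport q ⊆ Metric.closedBall 0 4 →
      (∀ y, |q y| ≤ A ∧ ‖fderiv ℝ q y‖ ≤ A ∧ ‖iteratedFDeriv ℝ 2 q y‖ ≤ A) →
      |∫ X, q (npr N.u (X - zz N.u X₀)) ∂N.μ - ∫ X, q (npr N.u X) ∂N.μ| ≤ C' * ε * a ^ 2 * A := by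
  obtain ⟨h₁, hh₁, H₁⟩ := exists_kit m n Q 8 (by norm_num)
  obtain ⟨h₂, ε₂, C₂, hh₂, hε₂, hC₂, H₂⟩ := shift_pointwise m n
  obtain ⟨ε₃, C₃, hε₃, hC₃, H₃⟩ := tangential_part m n
  refine ⟨min h₁ (min h₂ (1 / 9)), by positivity, fun C => ?_⟩
  obtain ⟨Cm, hCm, H₁⟩ := H₁ C
  have hC0 : 0 ≤ |C| := abs_nonneg C
  refine ⟨min (1 / 2) (min ε₂ (min ε₃ (min h₂ (1 / 9) / (|C| + 1)))),
    (Cm * ((10 * C₃ * |C| + 2 * C₂ * C ^ 2) ^ 2 + 2 * C₂ * C ^ 2) + 10 * C₃ * |C| * Cm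
          + Q * |C| * Cm) + 1, by positivity, by positivity,
    fun N a ε X₀ hc hh ha hε q A hq hqs hqA => ?_⟩
  have hε12 : ε ≤ 1 / 2 := hε.trans (min_le_left _ _)
  have hεε₂ : ε ≤ ε₂ := hε.trans ((min_le_right _ _).trans (min_le_left _ _))
  have hεε₃ : ε ≤ ε₃ :=
    hε.trans ((min_le_right _ _).trans ((min_le_right _ _).trans (min_le_left _ _)))
  have ha12 : a ≤ 1 / 2 := ha.trans (min_le_left _ _)
  have haC : a ≤ min h₂ (1 / 9) / (|C| + 1) :=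
    ha.trans ((min_le_right _ _).trans ((min_le_right _ _).trans (min_le_right _ _)))
  have hh1 : N.h ≤ h₁ := hh.trans (min_le_left _ _)
  have hh2 : N.h ≤ h₂ := hh.trans ((min_le_right _ _).trans (min_le_left _ _))
  have hh9 : N.h ≤ 1 / 9 := hh.trans ((min_le_right _ _).trans (min_le_right _ _))
  have K : SK N 8 a C ε Cm :=
    H₁ N a ε hc.NQ hh1 hc.a_pos (ha12.trans (by norm_num)) hc.eps_nonneg hε12 hc.small
  have hF : Flat4 ε N.u := ⟨hc.small.smooth, hc.small.geo⟩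
  have hCa : |C| * a ≤ min h₂ (1 / 9) := by
    have h1 : a * (|C| + 1) ≤ min h₂ (1 / 9) := (le_div_iff₀ (by positivity)).1 haC
    nlinarith [hc.a_pos]
  have hw : ‖zz N.u X₀‖ ≤ |C| * a :=
    (hc.small.height X₀ hc.mem_supp hc.mem_cyl).trans
      (mul_le_mul_of_nonneg_right (le_abs_self C) hc.a_pos.le)
  obtain ⟨t1, t2, t3⟩ := H₃ N.u ε hF hεε₃ (zz N.u X₀)
  have hnormal : Ph N.u (npr N.u X₀) (zz N.u X₀) = 0 := K.ok.normal X₀ hc.mem_cyl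
  have key := shf_core K hh9 hc.mem_supp hc.mem_cyl hc.base hC₂ hC₃ (hCa.trans (min_le_right _ _))
    (fun X hX hXz => (H₂ N.u ε hF hεε₂ X (zz N.u X₀) ⟨npr N.u X, hX.2.trans_le hh2⟩
      (hw.trans (hCa.trans (min_le_left _ _))) (hXz.trans (hCa.trans (min_le_left _ _)))).2.1)
    t1 t2 (fun y => t3 _ y hnormal)
    (fun Xc h1 h2 h3 => divS_integral N (K.ok.smooth.of_le (by norm_num)) Xc h1 h2 h3)
    q A hq hqs hqA
  refine key.trans ?_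
  rw [hc.NQ]
  have hA : 0 ≤ A := (abs_nonneg _).trans (hqA 0).1
  have hε0 := hc.eps_nonneg
  have hp : 0 ≤ ε * a ^ 2 * A := by positivity
  nlinarith

/-- [E2] the kernels in the graph chart: exact reference integral, `C²` bounds, comparison with the
flat kernels. -/
theorem kernel_facts (m n : ℕ) (hm : 1 ≤ m) : ∃ ε₁ C' : ℝ, 0 < ε₁ ∧ 0 < C' ∧
    ∀ (u : E m → E n) (ε : ℝ), Flat4 ε u → 0 ≤ ε → ε ≤ ε₁ → ∀ (y₀ : E m) (l : ℝ), 0 < l → l ≤ 1 →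
      ContDiff ℝ 2 (fun y => Wd u y₀ y * Phi (rho2 u y₀ y / l ^ 2)) ∧
      tsupport (fun y => Wd u y₀ y * Phi (rho2 u y₀ y / l ^ 2)) ⊆ Metric.closedBall y₀ l ∧
      tsupport (fun y => Wd u y₀ y * Psi (rho2 u y₀ y / l ^ 2)) ⊆ Metric.closedBall y₀ l ∧
      Continuous (fun y => Wd u y₀ y * Psi (rho2 u y₀ y / l ^ 2)) ∧
      (∀ y, |Wd u y₀ y * Phi (rho2 u y₀ y / l ^ 2)| ≤ C' ∧
        ‖fderiv ℝ (fun y => Wd u y₀ y * Phi (rho2 u y₀ y / l ^ 2)) y‖ ≤ C' / l ^ 2 ∧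
        ‖iteratedFDeriv ℝ 2 (fun y => Wd u y₀ y * Phi (rho2 u y₀ y / l ^ 2)) y‖ ≤ C' / l ^ 4) ∧
      ∫ y, Wd u y₀ y * Phi (rho2 u y₀ y / l ^ 2) * vdens (fderiv ℝ u y) ∂μH[(m : ℝ)]
        = l ^ m * cPhi m ∧
      (∀ x y : E m, |Wd u y₀ y * Phi (rho2 u y₀ y / l ^ 2) - Phi (‖y - x‖ ^ 2 / l ^ 2)|
          ≤ C' * (ε + ‖y₀ - x‖) / l ^ 2 ∧
        |Wd u y₀ y * Psi (rho2 u y₀ y / l ^ 2) - Psi (‖y - x‖ ^ 2 / l ^ 2)|
          ≤ C' * (ε + ‖y₀ - x‖) / l ^ 2) :=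
  kk_kernel_facts m n

/-- [E3] Taylor expansion of the kernel in the height. -/
theorem Phi_taylor (s r : ℝ) (hs : 0 ≤ s) (hr : 0 ≤ r) :
    Phi (s + r) ≤ Phi s - Psi s * r / 2 + 6 * r ^ 2 :=
  kk_Phi_taylor s r hs hr

/-! ### elementary facts on the kernels -/

theorem de_Psi_nonneg (s : ℝ) : 0 ≤ Psi s := by unfold Psi; positivity

theorem de_Psi_le {s : ℝ} (hs : 0 ≤ s) : Psi s ≤ 8 := by
  unfold Psi
  have h1 : max (1 - s) 0 ≤ 1 := max_le (by linarith) zero_le_one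
  have h2 : (max (1 - s) 0) ^ 3 ≤ 1 := pow_le_one₀ (le_max_right _ _) h1
  linarith

theorem de_Phi_add_le (s : ℝ) {r : ℝ} (hr : 0 ≤ r) : Phi (s + r) ≤ Phi s := by
  unfold Phi
  exact pow_le_pow_left₀ (le_max_right _ _) (max_le_max (by linarith) le_rfl) 4

theorem de_Psi_lip {s₁ s₂ : ℝ} (h1 : 0 ≤ s₁) (h2 : 0 ≤ s₂) :
    |Psi s₁ - Psi s₂| ≤ 24 * |s₁ - s₂| := by
  unfold Psi
  set p₁ := max (1 - s₁) 0 with hp₁
  set p₂ := max (1 - s₂) 0 with hp₂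
  have a1 : 0 ≤ p₁ := le_max_right _ _
  have a2 : 0 ≤ p₂ := le_max_right _ _
  have b1 : p₁ ≤ 1 := max_le (by linarith) zero_le_one
  have b2 : p₂ ≤ 1 := max_le (by linarith) zero_le_one
  have h3 : |p₁ - p₂| ≤ |s₁ - s₂| := by
    have := abs_max_sub_max_le_abs (1 - s₁) (1 - s₂) 0
    have e : (1 - s₁) - (1 - s₂) = -(s₁ - s₂) := by ring
    rwa [e, abs_neg] at this
  have e : 8 * p₁ ^ 3 - 8 * p₂ ^ 3 = 8 * ((p₁ - p₂) * (p₁ ^ 2 + p₁ * p₂ + p₂ ^ 2)) := by ring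
  rw [e, abs_mul, abs_mul]
  have h4 : |p₁ ^ 2 + p₁ * p₂ + p₂ ^ 2| ≤ 3 := by
    rw [abs_of_nonneg (by positivity)]
    nlinarith
  have h5 : |p₁ - p₂| * |p₁ ^ 2 + p₁ * p₂ + p₂ ^ 2| ≤ |s₁ - s₂| * 3 :=
    mul_le_mul h3 h4 (abs_nonneg _) (abs_nonneg _)
  rw [abs_of_pos (by norm_num : (0 : ℝ) < 8)]
  linarith

/-- the flat kernels in terms of `Phi`, `Psi` -/
theorem de_phiK_eq (m : ℕ) (x : E m) (l : ℝ) (y : E m) :
    Red.phiK m 4 x l y = (l ^ m)⁻¹ * Phi (‖y - x‖ ^ 2 / l ^ 2) := rfl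

theorem de_psiK_eq (m : ℕ) (x : E m) (l : ℝ) (y : E m) :
    Red.psiK m 4 x l y = (l ^ m)⁻¹ * Psi (‖y - x‖ ^ 2 / l ^ 2) := by
  unfold Red.psiK Psi
  norm_num
  ring

/-- Lipschitz bound of the flat kernel `Ψ(|y - x|²/l²)` -/
theorem de_Psi_flat_lip {l : ℝ} (hl : 0 < l) (x y y' : E m) :
    |Psi (‖y' - x‖ ^ 2 / l ^ 2) - Psi (‖y - x‖ ^ 2 / l ^ 2)|
      ≤ 24 * (‖y' - y‖ * (‖y' - x‖ + ‖y - x‖)) / l ^ 2 := by
  refine (de_Psi_lip (by positivity) (by positivity)).trans ?_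
  rw [← sub_div, abs_div, abs_of_pos (by positivity : 0 < l ^ 2), mul_div_assoc]
  gcongr
  have e : ‖y' - x‖ ^ 2 - ‖y - x‖ ^ 2 = (‖y' - x‖ - ‖y - x‖) * (‖y' - x‖ + ‖y - x‖) := by ring
  rw [e, abs_mul, abs_of_nonneg (by positivity : 0 ≤ ‖y' - x‖ + ‖y - x‖)]
  gcongr
  have := abs_norm_sub_norm_le (y' - x) (y - x)
  rwa [sub_sub_sub_cancel_right] at this

/-- the graph map is `2`-Lipschitz -/
theorem de_Fg_lip {u : E m → E n} {ε : ℝ} (hu : Differentiable ℝ u)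
    (hs : ∀ y, ‖fderiv ℝ u y‖ ≤ ε) (hε : ε ≤ 1) (y y' : E m) :
    ‖Fg u y - Fg u y'‖ ≤ 2 * ‖y - y'‖ := by
  have h1 : ‖u y - u y'‖ ≤ ε * ‖y - y'‖ :=
    Convex.norm_image_sub_le_of_norm_fderiv_le (fun x _ => hu x) (fun x _ => hs x) convex_univ
      (Set.mem_univ _) (Set.mem_univ _)
  have h2 : Fg u y - Fg u y' = mkHV (y - y') (u y - u y') := by rw [mkHV_sub]; rfl
  have h3 := norm_sq_mkHV (y - y') (u y - u y')
  rw [h2]
  have h4 : ‖u y - u y'‖ ≤ ‖y - y'‖ :=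
    h1.trans (by nlinarith [norm_nonneg (y - y')])
  refine (pow_le_pow_iff_left₀ (norm_nonneg _) (by positivity) (two_ne_zero)).1 ?_
  rw [h3]
  nlinarith [norm_nonneg (y - y'), norm_nonneg (u y - u y')]

/-- pure algebra behind the pointwise expansion -/
theorem de_pointwise_alg {W' s Z l a ψ T K η κ : ℝ} (hl : 0 < l) (hW0 : 0 ≤ W') (hW2 : W' ≤ 2)
    (hs : 0 ≤ s) (hZ0 : 0 ≤ Z) (hZ : Z ≤ K ^ 2 * a ^ 2) (hψ0 : 0 ≤ ψ) (hψ8 : ψ ≤ 8)
    (hη : |W' * Psi s - ψ| ≤ η) (hκ : 0 ≤ κ) (hT : T ≤ Z + κ * a ^ 2) :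
    W' * Phi (s + Z / l ^ 2) ≤ W' * Phi s - (2 * l ^ 2)⁻¹ * (ψ * T)
      + ((2 * l ^ 2)⁻¹ * (8 * κ + η * K ^ 2) + 12 * K ^ 4 * a ^ 2 / l ^ 4) * a ^ 2 := by
  have hl2 : 0 < l ^ 2 := by positivity
  have hr : 0 ≤ Z / l ^ 2 := by positivity
  have hη0 : 0 ≤ η := (abs_nonneg _).trans hη
  have t1 := mul_le_mul_of_nonneg_left (Phi_taylor s (Z / l ^ 2) hs hr) hW0
  have t2 : ψ - η ≤ W' * Psi s := by linarith [(abs_le.1 hη).1]
  have t3 : (ψ - η) * (Z / l ^ 2) ≤ W' * Psi s * (Z / l ^ 2) :=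
    mul_le_mul_of_nonneg_right t2 hr
  have t4 : ψ * T ≤ ψ * Z + 8 * κ * a ^ 2 := by
    have h1 : ψ * T ≤ ψ * (Z + κ * a ^ 2) := mul_le_mul_of_nonneg_left hT hψ0
    have h2 : ψ * (κ * a ^ 2) ≤ 8 * (κ * a ^ 2) :=
      mul_le_mul_of_nonneg_right hψ8 (by positivity)
    linarith
  have t5 : η * Z ≤ η * (K ^ 2 * a ^ 2) := mul_le_mul_of_nonneg_left hZ hη0
  have t6 : W' * (6 * (Z / l ^ 2) ^ 2) ≤ 12 * K ^ 4 * a ^ 2 / l ^ 4 * a ^ 2 := by
    have h1 : Z ^ 2 ≤ (K ^ 2 * a ^ 2) ^ 2 := pow_le_pow_left₀ hZ0 hZ 2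
    have h2 : W' * (6 * (Z / l ^ 2) ^ 2) ≤ 2 * (6 * (Z / l ^ 2) ^ 2) :=
      mul_le_mul_of_nonneg_right hW2 (by positivity)
    have h3 : 2 * (6 * (Z / l ^ 2) ^ 2) = 12 * Z ^ 2 / l ^ 4 := by
      field_simp
      ring
    have h4 : 12 * Z ^ 2 / l ^ 4 ≤ 12 * (K ^ 2 * a ^ 2) ^ 2 / l ^ 4 := by gcongr
    have h5 : 12 * (K ^ 2 * a ^ 2) ^ 2 / l ^ 4 = 12 * K ^ 4 * a ^ 2 / l ^ 4 * a ^ 2 := by ring
    linarith
  have t7 : (2 * l ^ 2)⁻¹ * (ψ * T) - (2 * l ^ 2)⁻¹ * (8 * κ + η * K ^ 2) * a ^ 2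
      ≤ (ψ - η) * (Z / l ^ 2) / 2 := by
    have e1 : (ψ - η) * (Z / l ^ 2) / 2 = (2 * l ^ 2)⁻¹ * (ψ * Z - η * Z) := by
      field_simp
    have e2 : (2 * l ^ 2)⁻¹ * (ψ * T) - (2 * l ^ 2)⁻¹ * (8 * κ + η * K ^ 2) * a ^ 2
        = (2 * l ^ 2)⁻¹ * (ψ * T - 8 * κ * a ^ 2 - η * (K ^ 2 * a ^ 2)) := by ring
    rw [e1, e2]
    refine mul_le_mul_of_nonneg_left ?_ (by positivity)
    linarith
  have e3 : W' * (Phi s - Psi s * (Z / l ^ 2) / 2 + 6 * (Z / l ^ 2) ^ 2)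
      = W' * Phi s - W' * Psi s * (Z / l ^ 2) / 2 + W' * (6 * (Z / l ^ 2) ^ 2) := by ring
  rw [e3] at t1
  have e4 : ((2 * l ^ 2)⁻¹ * (8 * κ + η * K ^ 2) + 12 * K ^ 4 * a ^ 2 / l ^ 4) * a ^ 2
      = (2 * l ^ 2)⁻¹ * (8 * κ + η * K ^ 2) * a ^ 2 + 12 * K ^ 4 * a ^ 2 / l ^ 4 * a ^ 2 := by ring
  rw [e4]
  linarith

/-- geometry of the shifted point `X - w`, `w = z(X₀)` -/
theorem de_shift_geom (m n Q : ℕ) : ∃ h₀ : ℝ, 0 < h₀ ∧ ∀ C : ℝ, ∃ ε₁ K : ℝ, 0 < ε₁ ∧ 0 < K ∧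
    ∀ (N : NCyl m n) (a ε : ℝ) (X₀ : E (m + n)), Ctr N Q a C ε X₀ → N.h ≤ h₀ → a ≤ ε₁ → ε ≤ ε₁ →
    ∀ X ∈ N.W.support, X ∈ Cyl N.u N.Ω N.h →
      ‖npr N.u (X - zz N.u X₀) - npr N.u X‖ ≤ K * ε * a ∧
      ‖zz N.u (X - zz N.u X₀) - (zz N.u X - zz N.u X₀)‖ ≤ K * ε * a ∧
      ‖zz N.u X‖ ≤ K * a ∧ ‖zz N.u X₀‖ ≤ K * a ∧ ‖zz N.u (X - zz N.u X₀)‖ ≤ K * a := by
  obtain ⟨hb, εb, Cb, hhb, hεb, hCb, Hb⟩ := shift_pointwise m n
  obtain ⟨ε₅, C₅, hε₅, hC₅, H5⟩ := tangential_part m n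
  obtain ⟨hd, hhd, Hd⟩ := exists_cylOK m n
  refine ⟨min hb hd, lt_min hhb hhd, fun C => ?_⟩
  set K₁ : ℝ := 2 * Cb * C ^ 2 + 10 * C₅ * |C| + 1 with hK₁
  have hK₁pos : 0 < K₁ := by positivity
  refine ⟨min (min εb ε₅) (1 / 2), 2 * K₁ + 2 * |C|, lt_min (lt_min hεb hε₅) (by norm_num),
    by positivity, ?_⟩
  intro N a ε X₀ hctr hh haε hε X hXs hXc
  have eb : ε ≤ εb := hε.trans ((min_le_left _ _).trans (min_le_left _ _))
  have e5 : ε ≤ ε₅ := hε.trans ((min_le_left _ _).trans (min_le_right _ _))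
  have e2 : ε ≤ 1 / 2 := hε.trans (min_le_right _ _)
  have a1 : a ≤ 1 := (haε.trans (min_le_right _ _)).trans (by norm_num)
  have hε0 := hctr.eps_nonneg
  have ha0 := hctr.a_pos
  have hS := hctr.small
  have hflat : Flat4 ε N.u := ⟨hS.smooth, hS.geo⟩
  have hok : CylOK N := Hd 1 N (hS.geo1 e2) (hh.trans (min_le_right _ _))
  have hhb' : N.h ≤ hb := hh.trans (min_le_left _ _)
  set w : E (m + n) := zz N.u X₀ with hw
  set y₀ : E m := npr N.u X₀ with hy₀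
  have hCa : C * a ≤ |C| * a := mul_le_mul_of_nonneg_right (le_abs_self C) ha0.le
  have hwa : ‖w‖ ≤ |C| * a := (hS.height X₀ hctr.mem_supp hctr.mem_cyl).trans hCa
  have hza : ‖zz N.u X‖ ≤ |C| * a := (hS.height X hXs hXc).trans hCa
  have hwh : ‖w‖ < N.h := hctr.mem_cyl.2
  have hzh : ‖zz N.u X‖ < N.h := hXc.2
  have hTb : X ∈ Tub N.u hb := ⟨npr N.u X, hzh.trans_le hhb'⟩
  obtain ⟨-, s2, -⟩ := Hb N.u ε hflat eb X w hTb (hwh.le.trans hhb') (hzh.le.trans hhb')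
  have hnorm : Ph N.u y₀ w = 0 := hok.normal X₀ hctr.mem_cyl
  have s5 := (H5 N.u ε hflat e5 w).2.2 y₀ (npr N.u X) hnorm
  have hy8 : ‖npr N.u X‖ < 8 := by
    have := hXc.1
    rw [hS.Ω_eq, Metric.mem_ball, dist_zero_right] at this
    exact this
  have hyy : ‖npr N.u X - y₀‖ ≤ 10 :=
    (norm_sub_le _ _).trans (by linarith [hctr.base])
  have hC0 : 0 ≤ |C| := abs_nonneg C
  have hCC : |C| ^ 2 = C ^ 2 := sq_abs C
  -- the base points
  have hy : ‖npr N.u (X - w) - npr N.u X‖ ≤ K₁ * ε * a := by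
    have h1 : npr N.u (X - w) - npr N.u X
        = (npr N.u (X - w) - npr N.u X + dFp (fderiv ℝ N.u (npr N.u X)) w)
          - dFp (fderiv ℝ N.u (npr N.u X)) w := by abel
    rw [h1]
    refine (norm_sub_le _ _).trans ?_
    have h2 : Cb * ε * (‖w‖ ^ 2 + ‖w‖ * ‖zz N.u X‖)
        ≤ Cb * ε * ((|C| * a) ^ 2 + (|C| * a) * (|C| * a)) := by gcongr
    have h3 : C₅ * ε * ‖npr N.u X - y₀‖ * ‖w‖ ≤ C₅ * ε * 10 * (|C| * a) := by gcongr
    have h4 : Cb * ε * ((|C| * a) ^ 2 + (|C| * a) * (|C| * a)) = 2 * Cb * C ^ 2 * ε * a * a := by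
      rw [mul_pow, hCC]
      have : |C| * a * (|C| * a) = |C| ^ 2 * a ^ 2 := by ring
      rw [this, hCC]
      ring
    have h5 : 2 * Cb * C ^ 2 * ε * a * a ≤ 2 * Cb * C ^ 2 * ε * a * 1 := by gcongr
    have h6 : K₁ * ε * a = 2 * Cb * C ^ 2 * ε * a * 1 + C₅ * ε * 10 * (|C| * a) + ε * a := by
      rw [hK₁]; ring
    have h7 : 0 ≤ ε * a := by positivity
    linarith
  -- the heights
  have hz : ‖zz N.u (X - w) - (zz N.u X - w)‖ ≤ 2 * (K₁ * ε * a) := by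
    have h1 : zz N.u (X - w) - (zz N.u X - w)
        = Fg N.u (npr N.u X) - Fg N.u (npr N.u (X - w)) := by
      simp only [zz]; abel
    rw [h1]
    refine (de_Fg_lip (hS.smooth.differentiable (by norm_num)) hS.slope
      (e2.trans (by norm_num)) _ _).trans ?_
    rw [norm_sub_rev]
    linarith
  have hεa : ε * a ≤ a := by nlinarith
  have hK : K₁ * ε * a ≤ K₁ * a := by
    rw [mul_assoc]
    exact mul_le_mul_of_nonneg_left hεa hK₁pos.le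
  have hpos1 : 0 ≤ K₁ * ε * a := by positivity
  have hpos2 : 0 ≤ |C| * ε * a := by positivity
  have hpos3 : 0 ≤ K₁ * a := by positivity
  have hpos4 : 0 ≤ |C| * a := by positivity
  refine ⟨?_, ?_, ?_, ?_, ?_⟩
  · have : (2 * K₁ + 2 * |C|) * ε * a = 2 * (K₁ * ε * a) + 2 * (|C| * ε * a) := by ring
    linarith
  · have : (2 * K₁ + 2 * |C|) * ε * a = 2 * (K₁ * ε * a) + 2 * (|C| * ε * a) := by ring
    linarith
  · have : (2 * K₁ + 2 * |C|) * a = 2 * (K₁ * a) + 2 * (|C| * a) := by ring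
    linarith
  · have : (2 * K₁ + 2 * |C|) * a = 2 * (K₁ * a) + 2 * (|C| * a) := by ring
    linarith
  · have e : zz N.u (X - w) = (zz N.u (X - w) - (zz N.u X - w)) + (zz N.u X - w) := by abel
    rw [e]
    refine (norm_add_le _ _).trans ?_
    have h1 := norm_sub_le (zz N.u X) w
    have : (2 * K₁ + 2 * |C|) * a = 2 * (K₁ * a) + 2 * (|C| * a) := by ring
    linarith

theorem de_Wd_nonneg (u : E m → E n) (y₀ y : E m) : 0 ≤ Wd u y₀ y :=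
  div_nonneg (Real.sqrt_nonneg _) (Real.sqrt_nonneg _)

theorem de_rho2_le {u : E m → E n} {ε : ℝ} (hs : ∀ y, ‖fderiv ℝ u y‖ ≤ ε) (hε : ε ≤ 1)
    (y₀ y : E m) : rho2 u y₀ y ≤ 2 * ‖y - y₀‖ ^ 2 := by
  unfold rho2
  rw [dF_apply, norm_sq_mkHV]
  have h1 : ‖fderiv ℝ u y₀ (y - y₀)‖ ≤ 1 * ‖y - y₀‖ :=
    (ContinuousLinearMap.le_opNorm _ _).trans
      (mul_le_mul_of_nonneg_right ((hs y₀).trans hε) (norm_nonneg _))
  rw [one_mul] at h1
  have h2 := pow_le_pow_left₀ (norm_nonneg _) h1 2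
  linarith

/-- **pointwise expansion** of the integrand of `I(X₀,l)` -/
theorem de_pointwise (m n Q : ℕ) (hm : 1 ≤ m) : ∃ h₀ : ℝ, 0 < h₀ ∧ ∀ C l : ℝ, 0 < l → l ≤ 1 →
    ∃ ε₁ K : ℝ, 0 < ε₁ ∧ 0 < K ∧
    ∀ (N : NCyl m n) (a ε θ : ℝ) (X₀ : E (m + n)), Ctr N Q a C ε X₀ → N.h ≤ h₀ → θ ≤ ε₁ →
      a ≤ θ → ε ≤ θ → ∀ x : E m, ‖x‖ ≤ 1 → ‖npr N.u X₀ - x‖ ≤ θ →
    ∀ X ∈ N.W.support, X ∈ Cyl N.u N.Ω N.h →
      Wd N.u (npr N.u X₀) (npr N.u (X - zz N.u X₀)) *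
          Phi (dsq N.u (npr N.u X₀) (X - zz N.u X₀) / l ^ 2)
        ≤ Wd N.u (npr N.u X₀) (npr N.u (X - zz N.u X₀)) *
            Phi (rho2 N.u (npr N.u X₀) (npr N.u (X - zz N.u X₀)) / l ^ 2)
          - (2 * l ^ 2)⁻¹ * (Psi (‖npr N.u X - x‖ ^ 2 / l ^ 2) *
              (‖zz N.u X‖ ^ 2 - 2 * inner ℝ (zz N.u X₀) (zz N.u X)))
          + K * θ * a ^ 2 := by
  obtain ⟨hg, hhg, Hg⟩ := de_shift_geom m n Q
  obtain ⟨hc, εc, Cc, hhc, hεc, hCc, Hc⟩ := dsq_compare m n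
  obtain ⟨εk, Ck, hεk, hCk, Hk⟩ := kernel_facts m n hm
  refine ⟨min hg (hc / 2), lt_min hhg (half_pos hhc), fun C l hl hl1 => ?_⟩
  obtain ⟨εg, K, hεg, hK, Hg⟩ := Hg C
  refine ⟨min (min εg εc) (min (min εk (1 / 2)) (min (1 / (16 * Cc)) (1 / K))),
    (2 * l ^ 2)⁻¹ * (24 * K ^ 2 + (2 * Ck + 480 * K) * K ^ 2 / l ^ 2) + 12 * K ^ 4 / l ^ 4,
    lt_min (lt_min hεg hεc) (lt_min (lt_min hεk (by norm_num))
      (lt_min (by positivity) (by positivity))), by positivity, ?_⟩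
  intro N a ε θ X₀ hctr hh hθ haθ hεθ x hx hyx X hXs hXc
  have tg : θ ≤ εg := hθ.trans ((min_le_left _ _).trans (min_le_left _ _))
  have tc : θ ≤ εc := hθ.trans ((min_le_left _ _).trans (min_le_right _ _))
  have tk : θ ≤ εk := hθ.trans ((min_le_right _ _).trans ((min_le_left _ _).trans
    (min_le_left _ _)))
  have t2 : θ ≤ 1 / 2 := hθ.trans ((min_le_right _ _).trans ((min_le_left _ _).trans
    (min_le_right _ _)))
  have tC : θ ≤ 1 / (16 * Cc) := hθ.trans ((min_le_right _ _).trans ((min_le_right _ _).trans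
    (min_le_left _ _)))
  have tK : θ ≤ 1 / K := hθ.trans ((min_le_right _ _).trans ((min_le_right _ _).trans
    (min_le_right _ _)))
  have hε0 := hctr.eps_nonneg
  have ha0 := hctr.a_pos
  have hθ0 : 0 < θ := ha0.trans_le haθ
  have hS := hctr.small
  have hflat : Flat4 ε N.u := ⟨hS.smooth, hS.geo⟩
  obtain ⟨g1, g2, g3, g4, g5⟩ := Hg N a ε X₀ hctr (hh.trans (min_le_left _ _)) (haθ.trans tg)
    (hεθ.trans tg) X hXs hXc
  set w : E (m + n) := zz N.u X₀ with hw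
  set y₀ : E m := npr N.u X₀ with hy₀
  set y : E m := npr N.u X with hy
  set y' : E m := npr N.u (X - w) with hy'
  set z : E (m + n) := zz N.u X with hz
  set z' : E (m + n) := zz N.u (X - w) with hz'
  have ha1 : a ≤ 1 := haθ.trans (t2.trans (by norm_num))
  have hε1 : ε ≤ 1 := hεθ.trans (t2.trans (by norm_num))
  have hKθ : K * θ ≤ 1 := by
    rw [le_div_iff₀ hK] at tK
    linarith
  have hKεa : K * ε * a ≤ K * θ := by
    have : K * ε * a ≤ K * θ * 1 := by gcongr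
    linarith
  have hKa : K * a ≤ 1 := (mul_le_mul_of_nonneg_left haθ hK.le).trans hKθ
  -- size of the base points
  have hy8 : ‖y‖ < 8 := by
    have := hXc.1
    rw [hS.Ω_eq, Metric.mem_ball, dist_zero_right] at this
    exact this
  have hyx9 : ‖y - x‖ ≤ 9 := (norm_sub_le _ _).trans (by linarith)
  have hy'y : ‖y' - y‖ ≤ 1 := g1.trans (hKεa.trans hKθ)
  have hy'x : ‖y' - x‖ ≤ 10 := by
    have : y' - x = (y' - y) + (y - x) := by abel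
    rw [this]
    exact (norm_add_le _ _).trans (by linarith)
  have hy'y₀ : ‖y' - y₀‖ ≤ 11 := by
    have : y' - y₀ = (y' - y) + (y - y₀) := by abel
    rw [this]
    refine (norm_add_le _ _).trans ?_
    have := norm_sub_le y y₀
    linarith [hctr.base]
  -- the tube
  have hXw : ‖X - w - Fg N.u y‖ < 2 * N.h := by
    have : X - w - Fg N.u y = z - w := by simp only [hz, hy, zz]; abel
    rw [this]
    exact (norm_sub_le _ _).trans_lt (by linarith [hXc.2, hctr.mem_cyl.2])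
  have hTc : X - w ∈ Tub N.u hc :=
    ⟨y, hXw.trans_le (by linarith [hh.trans (min_le_right _ _)])⟩
  obtain ⟨-, c2, -⟩ := Hc N.u ε hflat (hεθ.trans tc) y₀ (X - w) hTc
  -- `W ≤ 2`
  have hz'1 : ‖z'‖ ^ 2 ≤ 1 := pow_le_one₀ (norm_nonneg _) (g5.trans hKa)
  have hdsq : dsq N.u y₀ (X - w) ≤ 16 ^ 2 := by
    unfold dsq
    have h1 := de_rho2_le hS.slope hε1 y₀ y'
    have h2 := pow_le_pow_left₀ (norm_nonneg _) hy'y₀ 2
    linarith
  have hW2 : Wd N.u y₀ y' ≤ 2 := by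
    have h1 : Real.sqrt (dsq N.u y₀ (X - w)) ≤ 16 := Real.sqrt_le_iff.2 ⟨by norm_num, hdsq⟩
    have h2 : Cc * ε * Real.sqrt (dsq N.u y₀ (X - w)) ≤ Cc * θ * 16 := by gcongr
    have h3 : Cc * θ * 16 ≤ 1 := by
      rw [le_div_iff₀ (by positivity)] at tC
      linarith
    linarith [(abs_le.1 c2).2]
  -- the kernels
  obtain ⟨-, -, -, -, -, -, k7⟩ := Hk N.u ε hflat hε0 (hεθ.trans tk) y₀ l hl hl1
  have hl2 : 0 < l ^ 2 := by positivity
  have hη : |Wd N.u y₀ y' * Psi (rho2 N.u y₀ y' / l ^ 2) - Psi (‖y - x‖ ^ 2 / l ^ 2)|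
      ≤ (2 * Ck + 480 * K) * θ / l ^ 2 := by
    have h1 := (k7 x y').2
    have h2 := de_Psi_flat_lip hl x y y'
    have h3 : Ck * (ε + ‖y₀ - x‖) / l ^ 2 ≤ Ck * (θ + θ) / l ^ 2 := by gcongr
    have h4 : 24 * (‖y' - y‖ * (‖y' - x‖ + ‖y - x‖)) / l ^ 2
        ≤ 24 * ((K * θ) * (10 + 10)) / l ^ 2 := by
      gcongr
      · exact g1.trans hKεa
      · linarith
    have h5 : (2 * Ck + 480 * K) * θ / l ^ 2
        = Ck * (θ + θ) / l ^ 2 + 24 * ((K * θ) * (10 + 10)) / l ^ 2 := by ring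
    rw [h5]
    refine (abs_sub_le _ (Psi (‖y' - x‖ ^ 2 / l ^ 2)) _).trans ?_
    linarith
  -- the heights
  have hT : ‖z‖ ^ 2 - 2 * inner ℝ w z ≤ ‖z'‖ ^ 2 + (3 * K ^ 2 * θ) * a ^ 2 := by
    have h1 : ‖z - w‖ ^ 2 = ‖z‖ ^ 2 - 2 * inner ℝ z w + ‖w‖ ^ 2 := norm_sub_sq_real z w
    have h2 : (inner ℝ z w : ℝ) = inner ℝ w z := real_inner_comm _ _
    have h3 : ‖z - w‖ ≤ ‖z'‖ + K * ε * a := by
      have : z - w = z' - (z' - (z - w)) := by abel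
      rw [this]
      exact (norm_sub_le _ _).trans (by linarith)
    have h4 := pow_le_pow_left₀ (norm_nonneg _) h3 2
    have h5 : (‖z'‖ + K * ε * a) ^ 2 = ‖z'‖ ^ 2 + 2 * ‖z'‖ * (K * ε * a) + (K * ε * a) ^ 2 := by
      ring
    have h6 : 2 * ‖z'‖ * (K * ε * a) ≤ 2 * (K * a) * (K * θ * a) := by gcongr
    have h7 : (K * ε * a) ^ 2 ≤ (K * θ * a) * (K * 1 * a) := by
      rw [sq]
      gcongr
    have h8 : (3 * K ^ 2 * θ) * a ^ 2 = 2 * (K * a) * (K * θ * a) + (K * θ * a) * (K * 1 * a) := by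
      ring
    have h9 := sq_nonneg ‖w‖
    rw [h8]
    linarith
  have hZ : ‖z'‖ ^ 2 ≤ K ^ 2 * a ^ 2 := by
    rw [← mul_pow]
    exact pow_le_pow_left₀ (norm_nonneg _) g5 2
  have hmain := de_pointwise_alg (W' := Wd N.u y₀ y') (s := rho2 N.u y₀ y' / l ^ 2)
    (Z := ‖z'‖ ^ 2) (a := a) (ψ := Psi (‖y - x‖ ^ 2 / l ^ 2))
    (T := ‖z‖ ^ 2 - 2 * inner ℝ w z) (K := K) hl (de_Wd_nonneg _ _ _) hW2
    (div_nonneg (by unfold rho2; positivity) hl2.le) (by positivity) hZ (de_Psi_nonneg _)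
    (de_Psi_le (by positivity)) hη (by positivity) hT
  have e1 : dsq N.u y₀ (X - w) / l ^ 2 = rho2 N.u y₀ y' / l ^ 2 + ‖z'‖ ^ 2 / l ^ 2 := by
    unfold dsq
    rw [add_div]
  rw [e1]
  refine hmain.trans ?_
  have ha2 : a ^ 2 ≤ θ := by
    have : a ^ 2 ≤ a * 1 := by rw [sq]; exact mul_le_mul_of_nonneg_left ha1 ha0.le
    linarith
  have h10 : 12 * K ^ 4 * a ^ 2 / l ^ 4 ≤ 12 * K ^ 4 * θ / l ^ 4 := by gcongr
  have h11 : (2 * l ^ 2)⁻¹ * (8 * (3 * K ^ 2 * θ) + (2 * Ck + 480 * K) * θ / l ^ 2 * K ^ 2)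
      + 12 * K ^ 4 * θ / l ^ 4
      = ((2 * l ^ 2)⁻¹ * (24 * K ^ 2 + (2 * Ck + 480 * K) * K ^ 2 / l ^ 2) + 12 * K ^ 4 / l ^ 4)
        * θ := by ring
  have h12 : ((2 * l ^ 2)⁻¹ * (8 * (3 * K ^ 2 * θ) + (2 * Ck + 480 * K) * θ / l ^ 2 * K ^ 2)
      + 12 * K ^ 4 * a ^ 2 / l ^ 4) * a ^ 2
      ≤ (((2 * l ^ 2)⁻¹ * (24 * K ^ 2 + (2 * Ck + 480 * K) * K ^ 2 / l ^ 2) + 12 * K ^ 4 / l ^ 4)
        * θ) * a ^ 2 := by
    rw [← h11]
    gcongr
  linarith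

theorem de_Phi_continuous : Continuous Phi := by
  unfold Phi
  exact ((continuous_const.sub continuous_id).max continuous_const).pow 4

theorem de_Psi_continuous : Continuous Psi := by
  unfold Psi
  exact continuous_const.mul (((continuous_const.sub continuous_id).max continuous_const).pow 3)

/-- `∫ q(π X) dμ = ∫ q dM + Q ∫ q √g dy` -/
theorem de_integral_base {N : NCyl m n} (hok : CylOK N) {q : E m → ℝ} (hq : Continuous q)
    (hsupp : ∀ y, y ∉ N.Ω → q y = 0) :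
    ∫ X, q (npr N.u X) ∂N.μ
      = N.intM q + N.Q * ∫ y, q y * vdens (fderiv ℝ N.u y) ∂μH[(m : ℝ)] := by
  have h1 : ∫ y, q y ∂N.nu = ∫ X, q (npr N.u X) ∂N.μ := by
    unfold NCyl.nu
    exact integral_map hok.aemeasurable_npr hq.aestronglyMeasurable
  have hv : Continuous fun y => vdens (fderiv ℝ N.u y) :=
    continuous_vdens.comp (hok.smooth.continuous_fderiv (by norm_num))
  have h2 : ∫ y, q y ∂N.volS = ∫ y, q y * vdens (fderiv ℝ N.u y) ∂μH[(m : ℝ)] := by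
    unfold NCyl.volS
    have hvm : Measurable fun y => ENNReal.ofReal (vdens (fderiv ℝ N.u y)) :=
      ENNReal.measurable_ofReal.comp hv.measurable
    rw [integral_withDensity_eq_integral_toReal_smul hvm
      (Filter.Eventually.of_forall fun _ => ENNReal.ofReal_lt_top)]
    rw [setIntegral_eq_integral_of_forall_compl_eq_zero]
    · refine integral_congr_ae (Filter.Eventually.of_forall fun y => ?_)
      simp only [smul_eq_mul]
      rw [ENNReal.toReal_ofReal (show 0 ≤ vdens (fderiv ℝ N.u y) from Real.sqrt_nonneg _), mul_comm]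
    · intro y hy
      rw [hsupp y hy, smul_zero]
  unfold NCyl.intM
  rw [h1, h2]
  ring

/-- functions of the shifted point are measurable -/
theorem de_aesm_shift {N : NCyl m n} (hok : CylOK N) {F : Type*} [TopologicalSpace F]
    [TopologicalSpace.PseudoMetrizableSpace F] [SecondCountableTopology F]
    {f : E (m + n) → F} {h : ℝ} {w : E (m + n)} (hf : ContinuousOn f (Tub N.u h))
    (hw : ‖w‖ + N.h ≤ h) : AEStronglyMeasurable (fun X => f (X - w)) N.μ := by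
  refine hok.aesm (hf.comp (continuous_id.sub continuous_const).continuousOn fun X hX => ?_)
  refine ⟨npr N.u X, ?_⟩
  have e : X - w - Fg N.u (npr N.u X) = zz N.u X - w := by simp only [zz]; abel
  rw [e]
  exact (norm_sub_le _ _).trans_lt (by linarith [hX.2])

/-- the mixed term, coordinate by coordinate -/
theorem de_mixed {N : NCyl m n} {R a C ε Cm : ℝ} (h : SK N R a C ε Cm) {g : E m → ℝ}
    (hg : Continuous g) {B : ℝ} (hB : ∀ y, |g y| ≤ B) (w : E (m + n)) :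
    Integrable (fun X => g (npr N.u X) * inner ℝ w (zz N.u X)) N.μ ∧
    ∫ X, g (npr N.u X) * inner ℝ w (zz N.u X) ∂N.μ
      = ∑ k, w k * ∫ X, g (npr N.u X) * (zz N.u X) k ∂N.μ := by
  have := h.fin
  have hk : ∀ k, Integrable (fun X => (zz N.u X) k) N.μ := by
    intro k
    refine Integrable.of_bound (C := |C| * a) ?_ ?_
    · exact h.ok.aesm ((EuclideanSpace.proj k).continuous.comp_continuousOn h.ok.cont_zz)
    · filter_upwards [h.ae] with X hX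
      exact (PiLp.norm_apply_le _ k).trans hX.2.2
  have hgk : ∀ k, Integrable (fun X => g (npr N.u X) * (zz N.u X) k) N.μ := fun k =>
    h.ok.integrable_weight (hk k) hg hB
  have e : ∀ X, g (npr N.u X) * inner ℝ w (zz N.u X)
      = ∑ k, w k * (g (npr N.u X) * (zz N.u X) k) := by
    intro X
    rw [PiLp.inner_apply, Finset.mul_sum]
    refine Finset.sum_congr rfl fun k _ => ?_
    simp only [RCLike.inner_apply, conj_trivial]
    ring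
  constructor
  · simp_rw [e]
    exact integrable_finsetSum _ fun k _ => (hgk k).const_mul _
  · simp_rw [e]
    rw [integral_finsetSum _ fun k _ => (hgk k).const_mul _]
    refine Finset.sum_congr rfl fun k _ => ?_
    rw [integral_const_mul]

/-- final bookkeeping of `expand` -/
theorem de_final_alg {I0 A1 A1' H A3 M iq ip cP Qr L c θ a ε Kp Cs Ck Cm l Cc d δ : ℝ}
    (hL : 0 < L) (hc : 0 ≤ c) (hθ : 0 ≤ θ) (hl : 0 < l) (hKp : 0 ≤ Kp) (hCs : 0 ≤ Cs)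
    (hCk : 0 ≤ Ck) (hεθ : ε ≤ θ) (hM : M ≤ Cm)
    (h1 : I0 ≤ A1 - c * (L * H - 2 * A3) + Kp * θ * a ^ 2 * M)
    (h2 : A1 ≤ A1' + Cs * ε * a ^ 2 * (Ck / l ^ 4))
    (h3 : A1' = iq + Qr * (L * cP))
    (h4 : iq ≤ L * ip + Ck * (θ + θ) / l ^ 2 * (Cm * a ^ 2))
    (h5 : A3 ≤ d * (Cc * a) * (L * (θ * a)))
    (hδ : (L⁻¹ * (2 * Ck * Cm / l ^ 2 + Cs * Ck / l ^ 4 + Kp * Cm) + 2 * c * (d * Cc)) * θ ≤ δ) :
    L⁻¹ * I0 - Qr * cP ≤ ip - c * H + δ * a ^ 2 := by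
  have ha2 : 0 ≤ a ^ 2 := sq_nonneg a
  have b1 : Kp * θ * a ^ 2 * M ≤ Kp * θ * a ^ 2 * Cm := by gcongr
  have b2 : Cs * ε * a ^ 2 * (Ck / l ^ 4) ≤ Cs * θ * a ^ 2 * (Ck / l ^ 4) := by gcongr
  have b3 : c * (2 * A3) ≤ c * (2 * (d * (Cc * a) * (L * (θ * a)))) := by gcongr
  have key : I0 ≤ L * (ip + Qr * cP - c * H
      + (L⁻¹ * (2 * Ck * Cm / l ^ 2 + Cs * Ck / l ^ 4 + Kp * Cm) + 2 * c * (d * Cc)) * θ * a ^ 2) := by
    have e : L * (ip + Qr * cP - c * H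
        + (L⁻¹ * (2 * Ck * Cm / l ^ 2 + Cs * Ck / l ^ 4 + Kp * Cm) + 2 * c * (d * Cc)) * θ * a ^ 2)
        = L * ip + Qr * (L * cP) - c * (L * H)
          + (L * L⁻¹) * ((2 * Ck * Cm / l ^ 2 + Cs * Ck / l ^ 4 + Kp * Cm) * θ * a ^ 2)
          + c * (2 * (d * (Cc * a) * (L * (θ * a)))) := by ring
    rw [e, mul_inv_cancel₀ hL.ne', one_mul]
    have e2 : (2 * Ck * Cm / l ^ 2 + Cs * Ck / l ^ 4 + Kp * Cm) * θ * a ^ 2
        = Ck * (θ + θ) / l ^ 2 * (Cm * a ^ 2) + Cs * θ * a ^ 2 * (Ck / l ^ 4)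
          + Kp * θ * a ^ 2 * Cm := by ring
    rw [e2]
    have e3 : c * (L * H - 2 * A3) = c * (L * H) - c * (2 * A3) := by ring
    rw [e3] at h1
    linarith
  have k2 : L⁻¹ * I0 ≤ ip + Qr * cP - c * H
      + (L⁻¹ * (2 * Ck * Cm / l ^ 2 + Cs * Ck / l ^ 4 + Kp * Cm) + 2 * c * (d * Cc)) * θ * a ^ 2 := by
    rw [inv_mul_le_iff₀ hL]
    exact key
  have k3 := mul_le_mul_of_nonneg_right hδ ha2
  linarith

/-- [E4] **CO (6b.13) for one cylinder.** -/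
theorem expand (m n Q : ℕ) (hm : 1 ≤ m) : ∃ h₀ : ℝ, 0 < h₀ ∧
    ∀ C l : ℝ, 0 < l → l ≤ 1 → ∀ δ : ℝ, 0 < δ → ∃ ε₂ : ℝ, 0 < ε₂ ∧
    ∀ (N : NCyl m n) (a ε : ℝ) (X₀ : E (m + n)), Ctr N Q a C ε X₀ → N.h ≤ h₀ → a ≤ ε₂ → ε ≤ ε₂ →
    ∀ x : E m, ‖x‖ ≤ 1 → ‖npr N.u X₀ - x‖ ≤ ε₂ →
      (∀ k : Fin (m + n), |∫ X, Red.psiK m 4 x l (npr N.u X) * (zz N.u X) k ∂N.μ| ≤ ε₂ * a) →
      Irad N X₀ l - Q * cPhi m
        ≤ N.intM (Red.phiK m 4 x l) - (2 * l ^ 2)⁻¹ * hsq N (Red.psiK m 4 x l) + δ * a ^ 2 := by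
  obtain ⟨hp, hhp, Hp⟩ := de_pointwise m n Q hm
  obtain ⟨hs, hhs, Hs⟩ := shift_test m n Q hm
  obtain ⟨εk, Ck, hεk, hCk, Hk⟩ := kernel_facts m n hm
  obtain ⟨hK, hhK, HK⟩ := exists_kit m n Q 8 (by norm_num)
  obtain ⟨hr, εr, hhr, hεr, Hr⟩ := radial_exact m n
  obtain ⟨ht, hht, Ht⟩ := tube_deriv m n
  refine ⟨min (min hp hs) (min hK (min (hr / 2) (ht / 2))),
    lt_min (lt_min hhp hhs) (lt_min hhK (lt_min (half_pos hhr) (half_pos hht))),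
    fun C l hl hl1 δ hδ => ?_⟩
  obtain ⟨εp, Kp, hεp, hKp, Hp⟩ := Hp C l hl hl1
  obtain ⟨εs, Cs, hεs, hCs, Hs⟩ := Hs C
  obtain ⟨Cm, hCm, HK⟩ := HK C
  have hL : 0 < l ^ m := by positivity
  set Kt : ℝ := (l ^ m)⁻¹ * (2 * Ck * Cm / l ^ 2 + Cs * Ck / l ^ 4 + Kp * Cm)
    + 2 * (2 * l ^ 2)⁻¹ * (((m + n : ℕ) : ℝ) * |C|) with hKt
  have hKt0 : 0 < Kt := by positivity
  refine ⟨min (min (min εp εs) (min εk εr)) (min (1 / 2) (δ / Kt)),
    lt_min (lt_min (lt_min hεp hεs) (lt_min hεk hεr)) (lt_min (by norm_num) (by positivity)), ?_⟩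
  set θ : ℝ := min (min (min εp εs) (min εk εr)) (min (1 / 2) (δ / Kt)) with hθdef
  intro N a ε X₀ hctr hh haθ hεθ x hx hyx hmom
  have tp : θ ≤ εp := (min_le_left _ _).trans ((min_le_left _ _).trans (min_le_left _ _))
  have ts : θ ≤ εs := (min_le_left _ _).trans ((min_le_left _ _).trans (min_le_right _ _))
  have tk : θ ≤ εk := (min_le_left _ _).trans ((min_le_right _ _).trans (min_le_left _ _))
  have tr : θ ≤ εr := (min_le_left _ _).trans ((min_le_right _ _).trans (min_le_right _ _))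
  have t2 : θ ≤ 1 / 2 := (min_le_right _ _).trans (min_le_left _ _)
  have tδ : θ ≤ δ / Kt := (min_le_right _ _).trans (min_le_right _ _)
  have hhp' : N.h ≤ hp := hh.trans ((min_le_left _ _).trans (min_le_left _ _))
  have hhs' : N.h ≤ hs := hh.trans ((min_le_left _ _).trans (min_le_right _ _))
  have hhK' : N.h ≤ hK := hh.trans ((min_le_right _ _).trans (min_le_left _ _))
  have hhr' : N.h ≤ hr / 2 := hh.trans ((min_le_right _ _).trans ((min_le_right _ _).trans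
    (min_le_left _ _)))
  have hht' : N.h ≤ ht / 2 := hh.trans ((min_le_right _ _).trans ((min_le_right _ _).trans
    (min_le_right _ _)))
  have hε0 := hctr.eps_nonneg
  have ha0 := hctr.a_pos
  have hθ0 : 0 < θ := ha0.trans_le haθ
  have hS := hctr.small
  have hflat : Flat4 ε N.u := ⟨hS.smooth, hS.geo⟩
  have hsk : SK N 8 a C ε Cm := HK N a ε hctr.NQ hhK' ha0 (haθ.trans (t2.trans (by norm_num)))
    hε0 (hεθ.trans t2) hS
  have hok := hsk.ok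
  have hfin := hsk.fin
  set w : E (m + n) := zz N.u X₀ with hw
  set y₀ : E m := npr N.u X₀ with hy₀
  have hwh : ‖w‖ < N.h := hctr.mem_cyl.2
  have hwa : ‖w‖ ≤ |C| * a := (hS.height X₀ hctr.mem_supp hctr.mem_cyl).trans
    (mul_le_mul_of_nonneg_right (le_abs_self C) ha0.le)
  obtain ⟨k1, k2, -, -, k5, k6, k7⟩ := Hk N.u ε hflat hε0 (hεθ.trans tk) y₀ l hl hl1
  obtain ⟨-, r2, r3, -, -⟩ := Hr N.u ε hflat (hεθ.trans tr) y₀
  obtain ⟨-, d2, -, -⟩ := Ht 1 N.u hsk.geo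
  set q : E m → ℝ := fun y => Wd N.u y₀ y * Phi (rho2 N.u y₀ y / l ^ 2) with hq
  set gψ : E m → ℝ := fun y => Psi (‖y - x‖ ^ 2 / l ^ 2) with hgψ
  set c : ℝ := (2 * l ^ 2)⁻¹ with hc
  have hc0 : 0 < c := by positivity
  have hl2 : 0 < l ^ 2 := by positivity
  have hgψc : Continuous gψ :=
    de_Psi_continuous.comp (((continuous_id.sub continuous_const).norm.pow 2).div_const _)
  have hgψB : ∀ y, |gψ y| ≤ 8 := fun y => by
    rw [abs_of_nonneg (de_Psi_nonneg _)]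
    exact de_Psi_le (by positivity)
  -- integrability
  have i0 : Integrable (fun X => Wd N.u y₀ (npr N.u (X - w)) *
      Phi (dsq N.u y₀ (X - w) / l ^ 2)) N.μ := by
    refine Integrable.of_bound (C := Ck) ?_ (Filter.Eventually.of_forall fun X => ?_)
    · exact de_aesm_shift hok (f := fun X' => Wd N.u y₀ (npr N.u X') * Phi (dsq N.u y₀ X' / l ^ 2))
        (r3.continuousOn.mul (de_Phi_continuous.comp_continuousOn (r2.continuousOn.div_const _)))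
        (by linarith)
    · rw [Real.norm_eq_abs, abs_of_nonneg (mul_nonneg (de_Wd_nonneg _ _ _) (dm_Phi_nonneg _))]
      have e1 : dsq N.u y₀ (X - w) / l ^ 2
          = rho2 N.u y₀ (npr N.u (X - w)) / l ^ 2 + ‖zz N.u (X - w)‖ ^ 2 / l ^ 2 := by
        unfold dsq
        rw [add_div]
      rw [e1]
      refine (mul_le_mul_of_nonneg_left (de_Phi_add_le _ (by positivity))
        (de_Wd_nonneg _ _ _)).trans ?_
      exact (le_abs_self _).trans (k5 (npr N.u (X - w))).1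
  have i1 : Integrable (fun X => q (npr N.u (X - w))) N.μ := by
    refine Integrable.of_bound (C := Ck) ?_ (Filter.Eventually.of_forall fun X => ?_)
    · exact de_aesm_shift hok (f := fun X' => q (npr N.u X'))
        (k1.continuous.comp_continuousOn d2.continuousOn) (by linarith)
    · exact (k5 (npr N.u (X - w))).1
  have i2 : Integrable (fun X => gψ (npr N.u X) * ‖zz N.u X‖ ^ 2) N.μ :=
    hok.integrable_weight hsk.hsqw.1 hgψc hgψB
  obtain ⟨i3, e3⟩ := de_mixed hsk hgψc hgψB w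
  -- the pointwise inequality, integrated
  have h1 : ∫ X, Wd N.u y₀ (npr N.u (X - w)) * Phi (dsq N.u y₀ (X - w) / l ^ 2) ∂N.μ
      ≤ ∫ X, q (npr N.u (X - w)) ∂N.μ
        - c * (l ^ m * hsq N (Red.psiK m 4 x l)
          - 2 * ∫ X, gψ (npr N.u X) * inner ℝ w (zz N.u X) ∂N.μ)
        + Kp * θ * a ^ 2 * N.μ.real Set.univ := by
    have hmono := integral_mono_ae i0
      ((i1.sub ((i2.sub (i3.const_mul 2)).const_mul c)).add (integrable_const (Kp * θ * a ^ 2)))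
      (by
        filter_upwards [hok.ae_mem] with X hX
        have := Hp N a ε θ X₀ hctr hhp' tp haθ hεθ x hx hyx X hX.1 hX.2.1
        refine this.trans (le_of_eq ?_)
        simp only [Pi.add_apply, Pi.sub_apply, hq, hgψ]
        ring)
    refine hmono.trans (le_of_eq ?_)
    have e2 : ∫ X, gψ (npr N.u X) * ‖zz N.u X‖ ^ 2 ∂N.μ = l ^ m * hsq N (Red.psiK m 4 x l) := by
      unfold hsq
      rw [← integral_const_mul]
      refine integral_congr_ae (Filter.Eventually.of_forall fun X => ?_)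
      simp only [hgψ, de_psiK_eq]
      field_simp
    rw [integral_add' (i1.sub ((i2.sub (i3.const_mul 2)).const_mul c)) (integrable_const _),
      integral_sub' i1 ((i2.sub (i3.const_mul 2)).const_mul c), integral_const_mul,
      integral_sub' i2 (i3.const_mul 2), integral_const_mul, integral_const, e2, smul_eq_mul]
    ring
  -- the translated base test
  have hl4 : l ^ 4 ≤ 1 := pow_le_one₀ hl.le hl1
  have hl4' : l ^ 4 ≤ l ^ 2 := pow_le_pow_of_le_one hl.le hl1 (by norm_num)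
  have hy₀2 : ‖y₀‖ ≤ 2 := hctr.base
  have hsub3 : Metric.closedBall y₀ l ⊆ Metric.closedBall (0 : E m) 3 := by
    intro y hy
    rw [Metric.mem_closedBall, dist_eq_norm] at hy
    rw [Metric.mem_closedBall, dist_zero_right]
    calc ‖y‖ = ‖(y - y₀) + y₀‖ := by rw [sub_add_cancel]
      _ ≤ ‖y - y₀‖ + ‖y₀‖ := norm_add_le _ _
      _ ≤ 3 := by linarith
  have h2 : ∫ X, q (npr N.u (X - w)) ∂N.μ
      ≤ ∫ X, q (npr N.u X) ∂N.μ + Cs * ε * a ^ 2 * (Ck / l ^ 4) := by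
    have := Hs N a ε X₀ hctr hhs' (haθ.trans ts) (hεθ.trans ts) q (Ck / l ^ 4) k1
      ((k2.trans hsub3).trans (Metric.closedBall_subset_closedBall (by norm_num)))
      (fun y => ⟨(k5 y).1.trans (by rw [le_div_iff₀ (by positivity)]; nlinarith),
        (k5 y).2.1.trans (by gcongr), (k5 y).2.2⟩)
    linarith [(abs_le.1 this).2]
  -- the reference volume
  have hqT : IsTest (Metric.ball (0 : E m) 8) q :=
    ⟨k1.continuous, IsCompact.of_isClosed_subset (isCompact_closedBall y₀ l) (isClosed_tsupport _) k2,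
      (k2.trans hsub3).trans (Metric.closedBall_subset_ball (by norm_num))⟩
  have h3 : ∫ X, q (npr N.u X) ∂N.μ = N.intM q + (Q : ℝ) * (l ^ m * cPhi m) := by
    rw [de_integral_base hok k1.continuous (fun y hy => by
      refine image_eq_zero_of_notMem_tsupport fun hy' => hy ?_
      rw [hS.Ω_eq]
      exact hqT.sub hy'), hctr.NQ]
    congr 2
  -- comparison with the flat kernel
  have hφT : IsTest (Metric.ball (0 : E m) 8) (Red.phiK m 4 x l) :=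
    (Red.phiK_eq m 4 x l ▸ Red.isTest_kerK (Ω := Metric.ball (0 : E m) 8) ⟨hl, fun y hy => by
      rw [Metric.mem_closedBall, dist_eq_norm] at hy
      rw [Metric.mem_ball, dist_zero_right]
      calc ‖y‖ = ‖(y - x) + x‖ := by rw [sub_add_cancel]
        _ ≤ ‖y - x‖ + ‖x‖ := norm_add_le _ _
        _ < 8 := by linarith⟩ (by norm_num))
  have h4 : N.intM q ≤ l ^ m * N.intM (Red.phiK m 4 x l)
      + Ck * (θ + θ) / l ^ 2 * (Cm * a ^ 2) := by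
    have hR := hsk.isRadon_intM (Metric.ball (0 : E m) 8)
    have hd := hsk.abs_intM_le (g := q - (l ^ m) • Red.phiK m 4 x l)
      (B := Ck * (θ + θ) / l ^ 2) (hqT.sub_test (hφT.smul _)) (fun y => by
        have h := (k7 x y).1
        have e : (q - (l ^ m) • Red.phiK m 4 x l) y
            = Wd N.u y₀ y * Phi (rho2 N.u y₀ y / l ^ 2) - Phi (‖y - x‖ ^ 2 / l ^ 2) := by
          simp only [Pi.sub_apply, Pi.smul_apply, smul_eq_mul, de_phiK_eq, hq]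
          field_simp
        rw [e]
        refine h.trans ?_
        gcongr)
    rw [hR.map_sub hqT (hφT.smul _), hR.smul _ _ hφT] at hd
    linarith [(abs_le.1 hd).2]
  -- the mixed term
  have h5 : ∫ X, gψ (npr N.u X) * inner ℝ w (zz N.u X) ∂N.μ
      ≤ ((m + n : ℕ) : ℝ) * (|C| * a) * (l ^ m * (θ * a)) := by
    rw [e3]
    refine (le_abs_self _).trans ((Finset.abs_sum_le_sum_abs _ _).trans ?_)
    have hb : ∀ k ∈ (Finset.univ : Finset (Fin (m + n))),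
        |w k * ∫ X, gψ (npr N.u X) * (zz N.u X) k ∂N.μ| ≤ (|C| * a) * (l ^ m * (θ * a)) := by
      intro k _
      rw [abs_mul]
      have e : ∫ X, gψ (npr N.u X) * (zz N.u X) k ∂N.μ
          = l ^ m * ∫ X, Red.psiK m 4 x l (npr N.u X) * (zz N.u X) k ∂N.μ := by
        rw [← integral_const_mul]
        refine integral_congr_ae (Filter.Eventually.of_forall fun X => ?_)
        simp only [hgψ, de_psiK_eq]
        field_simp
      rw [e, abs_mul, abs_of_pos hL]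
      have hwk : |w k| ≤ |C| * a := by
        have := PiLp.norm_apply_le w k
        rw [Real.norm_eq_abs] at this
        exact this.trans hwa
      exact mul_le_mul hwk (mul_le_mul_of_nonneg_left (hmom k) hL.le) (by positivity)
        (by positivity)
    refine (Finset.sum_le_sum hb).trans (le_of_eq ?_)
    rw [Finset.sum_const, Finset.card_univ, Fintype.card_fin, nsmul_eq_mul]
    ring
  have hδ' : Kt * θ ≤ δ := by
    rw [le_div_iff₀ hKt0] at tδ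
    linarith
  have hfinal := de_final_alg (H := hsq N (Red.psiK m 4 x l)) (ip := N.intM (Red.phiK m 4 x l))
    (cP := cPhi m) (Qr := (Q : ℝ)) (δ := δ) hL hc0.le hθ0.le hl hKp.le hCs.le hCk.le hεθ hsk.mass
    h1 h2 h3 h4 h5 hδ'
  exact hfinal

end Claimed.Agent.R322.Dens
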