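import Claimed.Agent.R322.Pack051
import Claimed.Agent.R322.Tube.Geom.LiftReg

/-!
# CO Section 6b, helpers for `Dens/Geom.lean` (P1, P2), third part: regularity of the fields,
the bound for the trace, the pointwise inequality for `Geo` graphs.  Prefix `dg_`.
-/

set_option autoImplicit false

open scoped ENNReal ContDiff Topology
open MeasureTheory

namespace Claimed.Agent.R322.Dens

open Claimed.Agent.R322.Tube Claimed.Agent.R322.Fn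

local notation "adj" => ContinuousLinearMap.adjoint
local notation "𝟙" => ContinuousLinearMap.id ℝ _

/-! ### 9. regularity -/

section Reg

variable {m n : ℕ} {u : E m → E n} {κ h : ℝ} {X : E (m + n)}

theorem dg_contDiffAt_Wnpr (hu : Geo κ u) (hh : h ≤ 2 / 9) (hX : X ∈ Tub u h) (y₀ : E m) :
    ContDiffAt ℝ 3 (fun X' => Wd u y₀ (npr u X')) X :=
  (dg_contDiff_Wd hu.smooth y₀).contDiffAt.comp X (npr_local hu hh hX).1

theorem dg_contDiff_rho2 (u : E m → E n) (y₀ : E m) : ContDiff ℝ 3 (rho2 u y₀) := by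
  unfold rho2
  exact ((dF (fderiv ℝ u y₀)).contDiff.comp (contDiff_id.sub contDiff_const)).norm_sq ℝ

theorem dg_contDiffAt_dsq (hu : Geo κ u) (hh : h ≤ 2 / 9) (hX : X ∈ Tub u h) (y₀ : E m) :
    ContDiffAt ℝ 3 (dsq u y₀) X := by
  unfold dsq
  exact ((dg_contDiff_rho2 u y₀).contDiffAt.comp X (npr_local hu hh hX).1).add
    ((zz_local hu hh hX).1.norm_sq ℝ)

theorem dg_contDiffAt_lift (hu : Geo κ u) (hh : h ≤ 2 / 9) (hX : X ∈ Tub u h) (y₀ : E m) :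
    ContDiffAt ℝ 2 (lift u (fun y' => y' - y₀)) X :=
  contDiffAt_lift hu hh hX le_rfl (contDiff_id.sub contDiff_const)

theorem dg_contDiffAt_Yf (hu : Geo κ u) (hh : h ≤ 2 / 9) (hX : X ∈ Tub u h) (y₀ : E m) :
    ContDiffAt ℝ 2 (Yf u y₀) X :=
  (dg_contDiffAt_lift hu hh hX y₀).add ((zz_local hu hh hX).1.of_le (by norm_num))

theorem dg_contDiffAt_WY (hu : Geo κ u) (hh : h ≤ 2 / 9) (hX : X ∈ Tub u h) (y₀ : E m) :
    ContDiffAt ℝ 2 (WY u y₀) X :=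
  ((dg_contDiffAt_Wnpr hu hh hX y₀).of_le (by norm_num)).smul (dg_contDiffAt_Yf hu hh hX y₀)

end Reg

/-! ### 10. sizes on `d ≤ t` -/

section Size

variable {m n : ℕ} {u : E m → E n} {κ h t : ℝ} {X : E (m + n)}

theorem dg_r_le (y₀ : E m) (ht0 : 0 ≤ t) (hd : dsq u y₀ X ≤ t ^ 2) : ‖npr u X - y₀‖ ≤ t := by
  have h1 := dg_norm_sq_le_rho2 u y₀ (npr u X)
  have h2 : 0 ≤ ‖zz u X‖ ^ 2 := by positivity
  rw [dsq] at hd
  exact abs_le_of_sq_le_sq' (by linarith) ht0 |>.2 |> fun h => h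

theorem dg_zeta_le (y₀ : E m) (ht0 : 0 ≤ t) (hd : dsq u y₀ X ≤ t ^ 2) : ‖zz u X‖ ≤ t := by
  have h1 : 0 ≤ rho2 u y₀ (npr u X) := by rw [rho2]; positivity
  rw [dsq] at hd
  exact abs_le_of_sq_le_sq' (by linarith) ht0 |>.2 |> fun h => h

theorem dg_dsq_nonneg (u : E m → E n) (y₀ : E m) (X : E (m + n)) : 0 ≤ dsq u y₀ X := by
  rw [dsq, rho2]; positivity

theorem dg_Tub_mono (u : E m → E n) {h h' : ℝ} (hh : h ≤ h') : Tub u h ⊆ Tub u h' :=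
  fun _ ⟨y, hy⟩ => ⟨y, hy.trans_le hh⟩

theorem dg_Phi_Psi (s : ℝ) (hs : 0 ≤ s) : 0 ≤ Phi s ∧ Phi s ≤ Psi s ∧ Psi s ≤ 8 := by
  unfold Phi Psi
  set x := max (1 - s) 0 with hx
  have hx0 : 0 ≤ x := le_max_right _ _
  have hx1 : x ≤ 1 := max_le (by linarith) zero_le_one
  have h3 : x ^ 3 ≤ 1 := pow_le_one₀ hx0 hx1
  have h30 : 0 ≤ x ^ 3 := by positivity
  refine ⟨by positivity, ?_, by linarith⟩
  calc x ^ 4 = x ^ 3 * x := by ring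
    _ ≤ x ^ 3 * 1 := by gcongr
    _ ≤ 8 * x ^ 3 := by linarith

end Size

/-! ### 11. the trace bound -/

section TB

variable {m n : ℕ} {u : E m → E n} {κ h : ℝ} {X : E (m + n)} {P : E (m + n) →L[ℝ] E (m + n)}

theorem dg_abs_DWt_le (hu : Geo κ u) (hh : h ≤ 2 / 9) (hX : X ∈ Tub u h) (y₀ : E m)
    (hP : IsProj m P) (hW0 : 0 ≤ Wd u y₀ (npr u X)) :
    |fderiv ℝ (Wd u y₀) (npr u X) (dFp (fderiv ℝ u (npr u X))
        (Kz u X (Ph u (npr u X) (Yf u y₀ X - P (Yf u y₀ X)))))|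
      ≤ Wd u y₀ (npr u X) * (m * κ * (3 * (tilt u P X * (3 * ‖npr u X - y₀‖)
          + Real.sqrt (tilt u P X) * ‖zz u X‖))) := by
  set v := Ph u (npr u X) (Yf u y₀ X - P (Yf u y₀ X)) with hv
  have h1 : ‖v‖ ≤ tilt u P X * (3 * ‖npr u X - y₀‖) + Real.sqrt (tilt u P X) * ‖zz u X‖ :=
    dg_norm_Ph_QY_le hu hh hX y₀ hP
  have h2 : ‖Kz u X v‖ ≤ 2 * ‖v‖ := dg_norm_Kz_apply_le hu hh hX v
  have h3 : ‖dFp (fderiv ℝ u (npr u X)) (Kz u X v)‖ ≤ 3 / 2 * ‖Kz u X v‖ :=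
    ((dFp (fderiv ℝ u (npr u X))).le_opNorm _).trans (by gcongr; exact dg_norm_dFp_le hu _)
  have h4 : ‖dFp (fderiv ℝ u (npr u X)) (Kz u X v)‖
      ≤ 3 * (tilt u P X * (3 * ‖npr u X - y₀‖) + Real.sqrt (tilt u P X) * ‖zz u X‖) := by
    linarith
  have hκ := hu.nonneg
  have hm : (0 : ℝ) ≤ m := Nat.cast_nonneg _
  rw [dg_fderiv_Wd hu.smooth, abs_neg, abs_mul, abs_of_nonneg hW0]
  gcongr
  exact (dg_abs_fderiv_phi_le hu _ _).trans (by gcongr)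

theorem dg_T_bound (hu : Geo κ u) (hh : h ≤ 2 / 9) (hX : X ∈ Tub u h) (y₀ : E m)
    (hP : IsProj m P) {a t CL CN : ℝ} (ha : 0 ≤ a) (ht0 : 0 ≤ t) (ht : t ≤ 1)
    (hd : dsq u y₀ X ≤ t ^ 2) (hmκ : m * κ ≤ 1 / 2) (hCL : 0 ≤ CL) (hCN : 0 ≤ CN)
    (hH : ‖HS u (npr u X)‖ + Real.sqrt (DHSsq u (npr u X)) ≤ κ * a)
    (hEL : |tdiv P (fderiv ℝ (lift u (fun y' => y' - y₀)) X)
          - (divS u (fun y' => y' - y₀) (npr u X)
              - trc (Bop u P X ∘L nabS u (fun y' => y' - y₀) (npr u X)))|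
        ≤ CL * (κ * ‖zz u X‖ * tilt u P X * ‖nabS u (fun y' => y' - y₀) (npr u X)‖
            + (Real.sqrt (DHSsq u (npr u X)) * ‖zz u X‖ + κ ^ 2 * ‖zz u X‖ ^ 2
                + κ * tilt u P X * ‖zz u X‖
                + κ ^ 2 * Real.sqrt (tilt u P X) * ‖zz u X‖) * ‖npr u X - y₀‖))
    (hEN : |tdiv P (fderiv ℝ (zz u) X) - (tilt u P X - inner ℝ (HS u (npr u X)) (zz u X))|
        ≤ CN * (κ ^ 2 * ‖zz u X‖ ^ 2 + κ * tilt u P X * ‖zz u X‖)) :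
    |tdiv P (fderiv ℝ (WY u y₀) X) - m * Wd u y₀ (npr u X)|
      ≤ (7 * CL + 2 * CN + 5 + 18 * m) * κ *
        (tilt u P X * t + Real.sqrt (tilt u P X) * ‖zz u X‖ + a * ‖zz u X‖ + ‖zz u X‖ ^ 2) := by
  have hl : DifferentiableAt ℝ (lift u (fun y' => y' - y₀)) X :=
    (dg_contDiffAt_lift hu hh hX y₀).differentiableAt (by norm_num)
  have hr := dg_r_le (u := u) (X := X) y₀ ht0 hd
  have hζ := dg_zeta_le (u := u) (X := X) y₀ ht0 hd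
  have hκ := hu.nonneg
  have hm : (0 : ℝ) ≤ m := Nat.cast_nonneg _
  have hs : m * κ * ‖npr u X - y₀‖ ≤ 1 / 2 := by
    have h1 : ‖npr u X - y₀‖ ≤ 1 := hr.trans ht
    calc m * κ * ‖npr u X - y₀‖ ≤ m * κ * 1 := by gcongr
      _ ≤ 1 / 2 := by linarith
  obtain ⟨hW1, hW2⟩ := dg_Wd_bounds hu y₀ (npr u X) hs
  have hW0 : 0 ≤ Wd u y₀ (npr u X) := by linarith
  rw [dg_trace_formula hu hh hX y₀ hl]
  refine dg_real_T (κ := κ) (a := a) (t := t) (e := tilt u P X) (se := Real.sqrt (tilt u P X))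
    (ζ := ‖zz u X‖) (r := ‖npr u X - y₀‖) (CL := CL) (CN := CN) (M := m)
    (nab := ‖nabS u (fun y' => y' - y₀) (npr u X)‖) (sD := Real.sqrt (DHSsq u (npr u X)))
    hκ hu.le_one ha ht (tilt_nonneg u hP X) (Real.sqrt_nonneg _) (norm_nonneg _) hζ
    (norm_nonneg _) hr hW0 hW2 hCL hCN hm (dg_norm_nabS_le hu y₀ _) ?_ hEL hEN
    (dg_trc_Bop_nabS hu hP y₀ X) ?_ (dg_abs_DWt_le hu hh hX y₀ hP hW0)
  · linarith [norm_nonneg (HS u (npr u X))]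
  · refine (abs_real_inner_le_norm _ _).trans ?_
    gcongr
    linarith [Real.sqrt_nonneg (DHSsq u (npr u X))]

end TB

/-! ### 12. the pointwise inequality for `Geo` graphs -/

section PW

variable {m n : ℕ} {u : E m → E n} {κ h : ℝ} {X : E (m + n)} {P : E (m + n) →L[ℝ] E (m + n)}

theorem dg_pointwise (hu : Geo κ u) (hh : h ≤ 2 / 9) (hX : X ∈ Tub u h) (y₀ : E m)
    (hP : IsProj m P) {a t C₁ : ℝ} (ht0 : 0 < t) (ht : t ≤ 1)
    (hd : dsq u y₀ X ≤ t ^ 2) (hmκ : m * κ ≤ 1 / 2) (hC₁ : 0 ≤ C₁)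
    (hκ : κ * (4 * (4 * C₁ + 576)) ≤ 1)
    (hT : |tdiv P (fderiv ℝ (WY u y₀) X) - m * Wd u y₀ (npr u X)|
      ≤ C₁ * κ *
        (tilt u P X * t + Real.sqrt (tilt u P X) * ‖zz u X‖ + a * ‖zz u X‖ + ‖zz u X‖ ^ 2)) :
    - ((8 * (102 * C₁ + 14406)) * κ * t * (tilt u P X + a ^ 2)) ≤
        Psi (dsq u y₀ X / t ^ 2) / t ^ 2 * Wd u y₀ (npr u X) *
            inner ℝ (Yf u y₀ X) (Gf u y₀ X - P (Gf u y₀ X))
          + Phi (dsq u y₀ X / t ^ 2) *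
            (tdiv P (fderiv ℝ (WY u y₀) X) - m * Wd u y₀ (npr u X)) := by
  have hr := dg_r_le (u := u) (X := X) y₀ ht0.le hd
  have hζ := dg_zeta_le (u := u) (X := X) y₀ ht0.le hd
  have hκ0 := hu.nonneg
  have hm : (0 : ℝ) ≤ m := Nat.cast_nonneg _
  have hs : m * κ * ‖npr u X - y₀‖ ≤ 1 / 2 := by
    have h1 : ‖npr u X - y₀‖ ≤ 1 := hr.trans ht
    calc m * κ * ‖npr u X - y₀‖ ≤ m * κ * 1 := by gcongr
      _ ≤ 1 / 2 := by linarith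
  obtain ⟨hW1, hW2⟩ := dg_Wd_bounds hu y₀ (npr u X) hs
  obtain ⟨hΦ0, hΦ, hΨ⟩ := dg_Phi_Psi (dsq u y₀ X / t ^ 2)
    (div_nonneg (dg_dsq_nonneg u y₀ X) (by positivity))
  have he := tilt_nonneg u hP X
  have hG : ‖Gf u y₀ X‖ ≤ 5 * t := by
    have := dg_norm_G_le hu hh hX y₀
    linarith
  have hz : ‖zz u X‖ ≤ ‖Gf u y₀ X - P (Gf u y₀ X)‖ + Real.sqrt (tilt u P X) * (5 * t) := by
    refine (dg_norm_zz_le hu hh hX y₀ hP).trans ?_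
    gcongr
  exact dg_real_final (κ := κ) (a := a) (t := t) (e := tilt u P X)
    (se := Real.sqrt (tilt u P X)) (ζ := ‖zz u X‖) (r := ‖npr u X - y₀‖)
    (b := ‖Gf u y₀ X - P (Gf u y₀ X)‖) hκ0 hκ hu.le_one ht0 ht he (Real.sq_sqrt he)
    (norm_nonneg _) (norm_nonneg _) hr hW1 hW2 hΦ0 hΦ hΨ hC₁
    (dg_inner_Y_QG hu hh hX y₀ hP) hz hT

end PW

end Claimed.Agent.R322.Dens
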