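import Claimed.Agent.R322.Pack052
import Claimed.Agent.R322.Dens.Expand
import Claimed.Agent.R322.Lin.Main
import Claimed.Agent.R322.Pack007
import Claimed.Agent.R322.Pack037

/-!
# CO Proposition 6b.1: glue

PLAN of `main` (no geometry).  `J₀ = 4`, `h₀ = min` of the `h₀` of `almost_mono`, `good_centres`,
`expand`; `C = D.C`, `c = D.c`; `l₀` from `almost_mono`; `ε₁, C₁` from `almost_mono C`; `K` from
`good_centres C c s l₀`.
* `A i = {X | ‖X‖ ≤ 1 ∧ X ∈ support ∧ Θ X = Q}` (`σ_supp`), `A i ⊆ Cyl` (`cover`),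
  `G i = {X₀ ∈ A i | bad (N i) (a i) l₀ X₀ ≤ K a_i²}`; eventually `σ_i (G i) ≥ c/2`
  (`Lin.small_eventually (ofCentered D)`, `good_centres`).
* `Z = ` cluster set of `prH '' G (φ j)`; `limit_set_dim` with `τ j = (σ (φ j)).map prH`:
  `X = F(π X) + z(X)`, so `‖prV X‖ ≤ sup |u_i| + C a_i → 0` on `A i`, and
  `prH ⁻¹' ball x r ∩ A i ⊆ ball (x,0) (r + η)`.
* for `x ∈ Z`, `0 < l < l₀`: if `mm (phiK) - (2l²)⁻¹ nu (psiK) = - 3 δ' < 0`, take `ε₂` from
  `expand C l (δ'/2)`.  Eventually in `j`: the normalised functionals at `φ j` are within `δ'` of the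
  limit, `Small` holds with `ε ≤ min ε₁ ε₂`, `C₁ ε K ≤ δ'/2`, `a ≤ ...`, and the first moments against
  `psiK x l • e_k` are `≤ ε₂ a` (`moment1`).  Frequently there is `X₀ ∈ G (φ j)` with
  `‖prH X₀ - x‖ < ε₂/2`; `π X₀ = prH X₀ - prH (z X₀)`.  For such `j`
  `- C₁ ε K a² ≤ I - Q c_Φ ≤ a² (- 2 δ' + δ'/2)`: contradiction.
-/

set_option autoImplicit false

open scoped ENNReal ContDiff Topology
open MeasureTheory

namespace Claimed.Agent.R322.Dens

open Claimed.Agent.R322.Tube Claimed.Agent.R322.Fn Claimed.Agent.R322.Lin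

variable {m n : ℕ}

/-- the kernels are test functions -/
theorem isTest_kernels (m : ℕ) (x : E m) (l : ℝ) (hx : ‖x‖ ≤ 1) (hl : 0 < l) (hl1 : l ≤ 1) :
    IsTest (Metric.ball 0 4) (Red.phiK m 4 x l) ∧ IsTest (Metric.ball 0 4) (Red.psiK m 4 x l) := by
  have hA : Red.Adm (Metric.ball (0 : E m) 4) x l := by
    refine ⟨hl, fun y hy => ?_⟩
    rw [Metric.mem_closedBall, dist_eq_norm] at hy
    rw [Metric.mem_ball, dist_zero_right]
    calc ‖y‖ = ‖(y - x) + x‖ := by rw [sub_add_cancel]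
      _ ≤ ‖y - x‖ + ‖x‖ := norm_add_le _ _
      _ < 4 := by linarith
  rw [Red.phiK_eq, Red.psiK_eq]
  exact ⟨Red.isTest_kerK hA (by norm_num), Red.isTest_kerK hA (by norm_num)⟩

/-- `X = F(π X) + z(X)`, horizontal part -/
theorem prH_eq_npr_add (u : E m → E n) (X : E (m + n)) :
    prH m n X = npr u X + prH m n (zz u X) := by
  have h : X = Fg u (npr u X) + zz u X := by simp [zz]
  conv_lhs => rw [h]
  rw [map_add, Fg, prH_mkHV]

/-- `X = F(π X) + z(X)`, vertical part -/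
theorem prV_eq_u_add (u : E m → E n) (X : E (m + n)) :
    prV m n X = u (npr u X) + prV m n (zz u X) := by
  have h : X = Fg u (npr u X) + zz u X := by simp [zz]
  conv_lhs => rw [h]
  rw [map_add, Fg, prV_mkHV]

/-- distance to a horizontal point -/
theorem norm_sub_mkHV_zero_le (X : E (m + n)) (x : E m) :
    ‖X - mkHV x (0 : E n)‖ ≤ ‖prH m n X - x‖ + ‖prV m n X‖ := by
  have h := norm_sq_eq_prH_prV (X - mkHV x (0 : E n))
  rw [map_sub, map_sub, prH_mkHV, prV_mkHV, sub_zero] at h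
  by_contra hc
  rw [not_le] at hc
  nlinarith [norm_nonneg (X - mkHV x (0 : E n)), norm_nonneg (prH m n X - x),
    norm_nonneg (prV m n X)]

/-- the first height moments against `psiK x l • e_k` are `o(a_i)` -/
theorem moment1_kernel {s : ℝ} {Q J : ℕ} {hc : ℝ} (D : Blow.CenteredData m n s Q J hc)
    (x : E m) (l : ℝ) (hx : ‖x‖ ≤ 1) (hl : 0 < l) (hl1 : l ≤ 1) (ε₂ : ℝ) (hε₂ : 0 < ε₂) :
    ∀ᶠ i in Filter.atTop, ∀ k : Fin (m + n),
      |∫ X, Red.psiK m 4 x l (npr (D.N i).u X) * (zz (D.N i).u X) k ∂(D.N i).μ| ≤ ε₂ * D.a i := by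
  rw [Filter.eventually_all]
  intro k
  have hT := (isTest_kernels m x l hx hl hl1).2
  have h := D.moment1 (fun y => Red.psiK m 4 x l y • EuclideanSpace.single k (1 : ℝ))
    (hT.cont.smul continuous_const) (hT.cpt.smul_right)
    ((tsupport_smul_subset_left _ _).trans (hT.sub.trans (Metric.ball_subset_ball (by norm_num))))
  have h2 := h.abs
  rw [abs_zero] at h2
  filter_upwards [h2.eventually (Iic_mem_nhds hε₂)] with i hi
  have ha := D.a_pos i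
  have hi' : |(D.a i)⁻¹ * ∫ X, Red.psiK m 4 x l (npr (D.N i).u X) * (zz (D.N i).u X) k
      ∂(D.N i).μ| ≤ ε₂ := by
    have : ∀ X, inner ℝ (Red.psiK m 4 x l (npr (D.N i).u X) • EuclideanSpace.single k (1 : ℝ))
        (zz (D.N i).u X) = Red.psiK m 4 x l (npr (D.N i).u X) * (zz (D.N i).u X) k := by
      intro X
      rw [inner_smul_left, EuclideanSpace.inner_single_left]
      simp
    simpa [this] using hi
  rw [abs_mul, abs_of_pos (inv_pos.2 ha)] at hi'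
  rw [inv_mul_le_iff₀ ha] at hi'
  linarith

/-- **CO Proposition 6b.1** (= `R322.dens`). -/
theorem main (hm : 1 ≤ m) (hn : 1 ≤ n) (Q : ℕ) (hQ : 1 ≤ Q) :
    ∃ (J₀ : ℕ) (h₀ : ℝ), 0 < h₀ ∧ ∀ (s : ℝ) (J : ℕ) (hc : ℝ), ((m : ℝ) - 1) < s → J₀ ≤ J →
      0 < hc → hc ≤ h₀ → ∀ (D : Blow.CenteredData m n s Q J hc)
        (φ : ℕ → ℕ) (nu mm : (E m → ℝ) → ℝ), StrictMono φ →
        IsRadon (Metric.ball (0 : E m) 4) nu → IsRadon (Metric.ball (0 : E m) 4) mm →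
        WConv (Metric.ball 0 4) (fun i => D.nuSeq (φ i)) nu →
        WConv (Metric.ball 0 4) (fun i => D.mmSeq (φ i)) mm →
        ∃ (Z : Set (E m)) (l₀ : ℝ), Z ⊆ Metric.closedBall 0 1 ∧ ENNReal.ofReal s ≤ dimH Z ∧
          0 < l₀ ∧ ∀ x ∈ Z, ∀ l : ℝ, 0 < l → l < l₀ →
            nu (Red.psiK m 4 x l) ≤ 2 * l ^ 2 * mm (Red.phiK m 4 x l) := by
  obtain ⟨h₁, l₀, hh₁, hl₀, hl₀1, Hmono⟩ := almost_mono m n Q hm
  obtain ⟨h₂, hh₂, Hgood⟩ := good_centres m n Q hm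
  obtain ⟨h₃, hh₃, Hexp⟩ := expand m n Q hm
  refine ⟨4, min h₁ (min h₂ h₃), lt_min hh₁ (lt_min hh₂ hh₃), ?_⟩
  intro s J hc hs hJ hc0 hch D φ nu mm hφ hnu hmm hWnu hWmm
  have hch₁ : hc ≤ h₁ := hch.trans (min_le_left _ _)
  have hch₂ : hc ≤ h₂ := hch.trans ((min_le_right _ _).trans (min_le_left _ _))
  have hch₃ : hc ≤ h₃ := hch.trans ((min_le_right _ _).trans (min_le_right _ _))
  have hs0 : 0 < s := by
    have : (1 : ℝ) ≤ m := by exact_mod_cast hm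
    linarith
  obtain ⟨ε₁, C₁, hε₁, hC₁, Hmono⟩ := Hmono D.C
  obtain ⟨ε₁', K, hε₁', hK, Hgood⟩ := Hgood D.C D.c s l₀ D.c_pos hl₀ hs
  -- the centres
  let A : ℕ → Set (E (m + n)) := fun i =>
    {X | ‖X‖ ≤ 1 ∧ X ∈ (D.N i).W.support ∧ (D.N i).W.Θ X = Q}
  let G : ℕ → Set (E (m + n)) := fun i =>
    {X₀ | X₀ ∈ A i ∧ bad (D.N i) (D.a i) l₀ X₀ ≤ ENNReal.ofReal (K * D.a i ^ 2)}
  have hAc : ∀ i, D.σ i (A i)ᶜ = 0 := fun i => D.σ_supp i
  have hAcyl : ∀ i, ∀ X ∈ A i, X ∈ Cyl (D.N i).u (Metric.ball 0 8) hc := fun i X hX =>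
    D.cover i X hX.2.1 (hX.1.trans (by norm_num))
  have hAz : ∀ i, ∀ X ∈ A i, ‖zz (D.N i).u X‖ ≤ D.C * D.a i := fun i X hX =>
    D.height_bd i X hX.2.1 (hAcyl i X hX)
  have hsmall : ∀ ε : ℝ, 0 < ε → ∀ᶠ i in Filter.atTop,
      Small (D.N i) 8 (D.a i) D.C ε ∧ D.a i ≤ 1 := fun ε hε =>
    Lin.small_eventually (ofCentered D) hJ ε hε
  have hCa : ∀ η : ℝ, 0 < η → ∀ᶠ i in Filter.atTop, D.C * D.a i ≤ η := by
    intro η hη
    have h := D.a_lim.const_mul D.C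
    rw [mul_zero] at h
    exact h.eventually (Iic_mem_nhds hη)
  have hφt : Filter.Tendsto φ Filter.atTop Filter.atTop := hφ.tendsto_atTop
  -- the limit set
  let Z : Set (E m) := {x : E m | ∀ δ : ℝ, 0 < δ → ∃ᶠ j in Filter.atTop,
      ((prH m n '' G (φ j)) ∩ Metric.ball x δ).Nonempty}
  have hGsub : ∀ j, prH m n '' G (φ j) ⊆ Metric.closedBall 0 1 := by
    rintro j _ ⟨X, hX, rfl⟩
    rw [Metric.mem_closedBall, dist_zero_right]
    exact (norm_prH_le X).trans hX.1.1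
  have hZsub : Z ⊆ Metric.closedBall 0 1 := by
    intro x hx
    rw [Metric.mem_closedBall, dist_zero_right]
    refine le_of_forall_pos_le_add (fun δ hδ => ?_)
    obtain ⟨j, y, hy1, hy2⟩ := (hx δ hδ).exists
    have h1 := hGsub j hy1
    rw [Metric.mem_closedBall, dist_zero_right] at h1
    rw [Metric.mem_ball, dist_eq_norm] at hy2
    calc ‖x‖ = ‖y - (y - x)‖ := by rw [sub_sub_cancel]
      _ ≤ ‖y‖ + ‖y - x‖ := norm_sub_le _ _
      _ ≤ 1 + δ := by linarith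
  have hdim : ENNReal.ofReal s ≤ dimH Z := by
    refine limit_set_dim s (D.c / 2) D.C hs0 (half_pos D.c_pos)
      (fun j => (D.σ (φ j)).map (prH m n)) (fun j => prH m n '' G (φ j)) hGsub ?_ ?_
    · have key : ∀ᶠ i in Filter.atTop, ENNReal.ofReal (D.c / 2) ≤
          ((D.σ i).map (prH m n)) (prH m n '' G i) := ?_
      · exact hφt.eventually key
      filter_upwards [hsmall ε₁' hε₁'] with i hi
      have h1 := Hgood (D.N i) (D.a i) ε₁' (D.N_Q i) ((D.N_h i).le.trans hch₂) (D.a_pos i) hi.2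
        hε₁'.le le_rfl hi.1 (D.σ i) (D.σ_lower i) (D.σ_upper i) (D.σ_ball i) (A i) (hAc i)
      refine h1.trans ?_
      refine le_trans (measure_mono (Set.subset_preimage_image (prH m n) (G i))) ?_
      exact Measure.le_map_apply (prH m n).continuous.measurable.aemeasurable _
    · intro η hη
      have key : ∀ᶠ i in Filter.atTop, ∀ (x : E m) (r : ℝ), 0 < r →
          ((D.σ i).map (prH m n)) (Metric.ball x r) ≤ ENNReal.ofReal (D.C * (r + η) ^ s) := ?_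
      · exact hφt.eventually key
      filter_upwards [D.u_conv (η / 2) (half_pos hη), hCa (η / 2) (half_pos hη)] with i hu ha x r hr
      rw [Measure.map_apply (prH m n).continuous.measurable measurableSet_ball]
      have hsub : prH m n ⁻¹' Metric.ball x r ⊆
          Metric.ball (mkHV x (0 : E n)) (r + η) ∪ (A i)ᶜ := by
        intro X hX
        by_cases hXA : X ∈ A i
        · left
          rw [Set.mem_preimage, Metric.mem_ball, dist_eq_norm] at hX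
          rw [Metric.mem_ball, dist_eq_norm]
          have h1 := norm_sub_mkHV_zero_le X x
          have h2 : ‖prV m n X‖ ≤ η / 2 + η / 2 := by
            rw [prV_eq_u_add (D.N i).u X]
            refine (norm_add_le _ _).trans (add_le_add ?_ ?_)
            · have := hu 0 (Nat.zero_le _) (npr (D.N i).u X)
              rwa [norm_iteratedFDeriv_zero] at this
            · exact (norm_prV_le _).trans ((hAz i X hXA).trans ha)
          linarith
        · right; exact hXA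
      calc D.σ i (prH m n ⁻¹' Metric.ball x r)
          ≤ D.σ i (Metric.ball (mkHV x (0 : E n)) (r + η) ∪ (A i)ᶜ) := measure_mono hsub
        _ ≤ D.σ i (Metric.ball (mkHV x (0 : E n)) (r + η)) + D.σ i (A i)ᶜ := measure_union_le _ _
        _ = D.σ i (Metric.ball (mkHV x (0 : E n)) (r + η)) := by rw [hAc i, add_zero]
        _ ≤ ENNReal.ofReal (D.C * (r + η) ^ s) := D.σ_ball i _ _ (by positivity)
  refine ⟨Z, l₀, hZsub, hdim, hl₀, ?_⟩
  intro x hx l hl hll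
  by_contra hcon
  rw [not_le] at hcon
  have hx1 : ‖x‖ ≤ 1 := by
    have := hZsub hx
    rwa [Metric.mem_closedBall, dist_zero_right] at this
  have hl1 : l ≤ 1 := hll.le.trans hl₀1
  obtain ⟨hT1, hT2⟩ := isTest_kernels m x l hx1 hl hl1
  have hl2 : 0 < 2 * l ^ 2 := by positivity
  obtain ⟨δ', hδ', hδeq⟩ : ∃ δ' : ℝ, 0 < δ' ∧
      mm (Red.phiK m 4 x l) - (2 * l ^ 2)⁻¹ * nu (Red.psiK m 4 x l) = - (3 * δ') := by
    refine ⟨((2 * l ^ 2)⁻¹ * nu (Red.psiK m 4 x l) - mm (Red.phiK m 4 x l)) / 3, ?_, by ring⟩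
    have : mm (Red.phiK m 4 x l) < (2 * l ^ 2)⁻¹ * nu (Red.psiK m 4 x l) := by
      rw [lt_inv_mul_iff₀ hl2]
      exact hcon
    linarith
  obtain ⟨ε₂, hε₂, Hexp⟩ := Hexp D.C l hl hl1 (δ' / 2) (half_pos hδ')
  obtain ⟨ε, hε, hεε₁, hεε₂, hεK⟩ : ∃ ε : ℝ, 0 < ε ∧ ε ≤ ε₁ ∧ ε ≤ ε₂ ∧ C₁ * ε * K ≤ δ' / 2 := by
    refine ⟨min (min ε₁ ε₂) (δ' / (2 * (C₁ * K))), lt_min (lt_min hε₁ hε₂) (by positivity),
      (min_le_left _ _).trans (min_le_left _ _), (min_le_left _ _).trans (min_le_right _ _), ?_⟩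
    have h1 : min (min ε₁ ε₂) (δ' / (2 * (C₁ * K))) ≤ δ' / (2 * (C₁ * K)) := min_le_right _ _
    have h2 : 0 < C₁ * K := by positivity
    calc C₁ * min (min ε₁ ε₂) (δ' / (2 * (C₁ * K))) * K
        = (C₁ * K) * min (min ε₁ ε₂) (δ' / (2 * (C₁ * K))) := by ring
      _ ≤ (C₁ * K) * (δ' / (2 * (C₁ * K))) := by gcongr
      _ = δ' / 2 := by field_simp
  have e1 := hsmall ε hε
  have e2 : ∀ᶠ i in Filter.atTop, D.a i ≤ min ε₁ ε₂ :=
    D.a_lim.eventually (Iic_mem_nhds (lt_min hε₁ hε₂))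
  have e3 := hCa (min 1 (ε₂ / 2)) (lt_min one_pos (half_pos hε₂))
  have e4 := moment1_kernel D x l hx1 hl hl1 ε₂ hε₂
  have e5 : ∀ᶠ j in Filter.atTop, D.mmSeq (φ j) (Red.phiK m 4 x l)
      - (2 * l ^ 2)⁻¹ * D.nuSeq (φ j) (Red.psiK m 4 x l) < - (2 * δ') := by
    have h := (hWmm _ hT1).sub ((hWnu _ hT2).const_mul ((2 * l ^ 2)⁻¹))
    rw [hδeq] at h
    exact h.eventually (Iio_mem_nhds (by linarith))
  have hev := (hφt.eventually (e1.and (e2.and (e3.and e4)))).and e5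
  obtain ⟨j, hne, ⟨⟨hS, -⟩, ha, hCa', hmom⟩, h5⟩ :=
    ((hx (ε₂ / 2) (half_pos hε₂)).and_eventually hev).exists
  obtain ⟨_, ⟨X₀, hX₀, rfl⟩, hXx⟩ := hne
  rw [Metric.mem_ball, dist_eq_norm] at hXx
  have hapos := D.a_pos (φ j)
  have hz := hAz (φ j) X₀ hX₀.1
  have hnpr : npr (D.N (φ j)).u X₀ = prH m n X₀ - prH m n (zz (D.N (φ j)).u X₀) := by
    rw [prH_eq_npr_add (D.N (φ j)).u X₀, add_sub_cancel_right]
  have hprz : ‖prH m n (zz (D.N (φ j)).u X₀)‖ ≤ min 1 (ε₂ / 2) :=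
    (norm_prH_le _).trans (hz.trans hCa')
  have hctr : Ctr (D.N (φ j)) Q (D.a (φ j)) D.C ε X₀ :=
    { small := hS
      NQ := D.N_Q _
      a_pos := hapos
      eps_nonneg := hε.le
      mem_supp := hX₀.1.2.1
      mem_cyl := by
        rw [D.N_Ω, D.N_h]
        exact hAcyl _ _ hX₀.1
      base := by
        rw [hnpr]
        refine (norm_sub_le _ _).trans ?_
        have h1 := (norm_prH_le X₀).trans hX₀.1.1
        have h2 := hprz.trans (min_le_left _ _)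
        linarith }
  have hb : bad (D.N (φ j)) (D.a (φ j)) l₀ X₀ ≠ ⊤ :=
    ne_top_of_le_ne_top ENNReal.ofReal_ne_top hX₀.2
  have hbK : (bad (D.N (φ j)) (D.a (φ j)) l₀ X₀).toReal ≤ K * D.a (φ j) ^ 2 :=
    ENNReal.toReal_le_of_le_ofReal (by positivity) hX₀.2
  have m1 := Hmono (D.N (φ j)) (D.a (φ j)) ε X₀ hctr ((D.N_h _).le.trans hch₁)
    (ha.trans (min_le_left _ _)) hεε₁ hX₀.1.2.2.ge hb l hl hll.le
  have m2 := Hexp (D.N (φ j)) (D.a (φ j)) ε X₀ hctr ((D.N_h _).le.trans hch₃)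
    (ha.trans (min_le_right _ _)) hεε₂ x hx1 (by
      rw [hnpr]
      have h2 := hprz.trans (min_le_right _ _)
      calc ‖prH m n X₀ - prH m n (zz (D.N (φ j)).u X₀) - x‖
          = ‖(prH m n X₀ - x) - prH m n (zz (D.N (φ j)).u X₀)‖ := by congr 1; abel
        _ ≤ ‖prH m n X₀ - x‖ + ‖prH m n (zz (D.N (φ j)).u X₀)‖ := norm_sub_le _ _
        _ ≤ ε₂ := by linarith) hmom
  have ha2 : 0 < D.a (φ j) ^ 2 := by positivity
  have m3 : (D.N (φ j)).intM (Red.phiK m 4 x l)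
      - (2 * l ^ 2)⁻¹ * hsq (D.N (φ j)) (Red.psiK m 4 x l) < - (2 * δ') * D.a (φ j) ^ 2 := by
    have : D.mmSeq (φ j) (Red.phiK m 4 x l) - (2 * l ^ 2)⁻¹ * D.nuSeq (φ j) (Red.psiK m 4 x l)
        = (D.a (φ j) ^ 2)⁻¹ * ((D.N (φ j)).intM (Red.phiK m 4 x l)
          - (2 * l ^ 2)⁻¹ * hsq (D.N (φ j)) (Red.psiK m 4 x l)) := by
      simp only [Blow.CenteredData.mmSeq, Blow.CenteredData.nuSeq, hsq]
      ring
    rw [this, inv_mul_lt_iff₀ ha2] at h5
    linarith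
  have m4 : C₁ * ε * (bad (D.N (φ j)) (D.a (φ j)) l₀ X₀).toReal ≤ δ' / 2 * D.a (φ j) ^ 2 := by
    calc C₁ * ε * (bad (D.N (φ j)) (D.a (φ j)) l₀ X₀).toReal
        ≤ C₁ * ε * (K * D.a (φ j) ^ 2) := by gcongr
      _ = (C₁ * ε * K) * D.a (φ j) ^ 2 := by ring
      _ ≤ δ' / 2 * D.a (φ j) ^ 2 := by gcongr
  nlinarith

end Claimed.Agent.R322.Dens
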